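import Mathlib

/-!
Rings of differential operators.
-/

set_option autoImplicit false
set_option linter.all false

namespace Vale.Agent.P286EI

open MvPolynomial MulOpposite

noncomputable section

section Comm

variable {σ B A : Type} [CommRing B] [Algebra ℂ B] [Ring A] [Algebra ℂ A]

theorem exists_cl (φ : B →ₐ[ℂ] A) (y : σ → A) (h1 : ∀ a b, y a * y b = y b * y a)
    (h2 : ∀ a z, y a * φ z = φ z * y a) :
    ∃ ψ : MvPolynomial σ B →ₐ[ℂ] A, (∀ z, ψ (C z) = φ z) ∧ ∀ a, ψ (X a) = y a := by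
  have h : ∀ a ∈ Set.range φ ∪ Set.range y, ∀ b ∈ Set.range φ ∪ Set.range y, a * b = b * a := by
    rintro _ (⟨a, rfl⟩ | ⟨a, rfl⟩) _ (⟨b, rfl⟩ | ⟨b, rfl⟩)
    · rw [← map_mul, ← map_mul, mul_comm]
    · exact (h2 _ _).symm
    · exact h2 _ _
    · exact h1 _ _
  let S := Algebra.adjoin ℂ (Set.range φ ∪ Set.range y)
  have hS : IsMulCommutative S := Algebra.isMulCommutative_adjoin ℂ h
  let _ : CommRing S := { (inferInstance : Ring S) with mul_comm := hS.is_comm.comm }
  let χ : MvPolynomial σ B →ₐ[ℂ] S := aevalTower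
    (φ.codRestrict S fun z => Algebra.subset_adjoin (Or.inl ⟨z, rfl⟩))
    fun a => ⟨y a, Algebra.subset_adjoin (Or.inr ⟨a, rfl⟩)⟩
  exact ⟨S.val.comp χ, fun z => congrArg Subtype.val (aevalTower_C _ _ z),
    fun a => congrArg Subtype.val (aevalTower_X _ _ a)⟩

/-- Evaluation of polynomials at commuting elements. -/
def cl (φ : B →ₐ[ℂ] A) (y : σ → A) (h1 : ∀ a b, y a * y b = y b * y a)
    (h2 : ∀ a z, y a * φ z = φ z * y a) : MvPolynomial σ B →ₐ[ℂ] A := (exists_cl φ y h1 h2).choose

theorem cl_C (φ : B →ₐ[ℂ] A) (y : σ → A) (h1 h2) (z : B) : cl φ y h1 h2 (C z) = φ z :=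
  (exists_cl φ y h1 h2).choose_spec.1 z

theorem cl_X (φ : B →ₐ[ℂ] A) (y : σ → A) (h1 h2) (a : σ) : cl φ y h1 h2 (X a) = y a :=
  (exists_cl φ y h1 h2).choose_spec.2 a

theorem mv_ext {φ ψ : MvPolynomial σ B →ₐ[ℂ] A} (h1 : ∀ z, φ (C z) = ψ (C z))
    (h2 : ∀ a, φ (X a) = ψ (X a)) : φ = ψ := AlgHom.ext fun p => by
  induction p using MvPolynomial.induction_on with
  | C z => exact h1 z
  | add p q hp hq => rw [map_add, map_add, hp, hq]
  | mul_X p a hp => rw [map_mul, map_mul, hp, h2]

theorem exists_dx (pd : Derivation ℂ B B) (w : σ → MvPolynomial σ B) :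
    ∃ δ : Derivation ℂ (MvPolynomial σ B) (MvPolynomial σ B),
      (∀ z, δ (C z) = C (pd z)) ∧ ∀ a, δ (X a) = w a := by
  let ψ : B →ₐ[ℂ] TrivSqZeroExt (MvPolynomial σ B) (MvPolynomial σ B) :=
    { toFun := fun z => (C z, C (pd z))
      map_one' := Prod.ext (map_one _) (by
        change C (pd 1) = 0
        simp)
      map_mul' := fun a b => TrivSqZeroExt.ext (map_mul _ _ _) (by
        change C (pd (a * b)) = C a * C (pd b) + C (pd a) * C b
        simp [mul_comm])
      map_zero' := Prod.ext (map_zero _) (by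
        change C (pd 0) = 0
        simp)
      map_add' := fun a b => Prod.ext (map_add _ _ _) (by
        change C (pd (a + b)) = C (pd a) + C (pd b)
        simp)
      commutes' := fun c => TrivSqZeroExt.ext rfl (by
        simp [TrivSqZeroExt.algebraMap_eq_inl']) }
  let χ := aevalTower ψ fun a => ((X a, w a) : TrivSqZeroExt (MvPolynomial σ B) _)
  have e : ∀ p, (χ p).fst = p := fun p => AlgHom.congr_fun
    (mv_ext (φ := (TrivSqZeroExt.fstHom ℂ _ _).comp χ) (ψ := AlgHom.id ℂ _)
      (fun z => congrArg TrivSqZeroExt.fst (aevalTower_C ψ _ z))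
      fun a => congrArg TrivSqZeroExt.fst (aevalTower_X ψ _ a)) p
  refine ⟨Derivation.mk' (((TrivSqZeroExt.sndHom _ _).restrictScalars ℂ).comp χ.toLinearMap)
    fun p q => ?_, fun z => congrArg TrivSqZeroExt.snd (aevalTower_C ψ _ z),
    fun a => congrArg TrivSqZeroExt.snd (aevalTower_X ψ _ a)⟩
  change (χ (p * q)).snd = p • (χ q).snd + q • (χ p).snd
  rw [map_mul, TrivSqZeroExt.snd_mul, e, e]
  simp [mul_comm]

/-- The derivation with given values on the coefficients and on the variables. -/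
def dx (pd : Derivation ℂ B B) (w : σ → MvPolynomial σ B) :
    Derivation ℂ (MvPolynomial σ B) (MvPolynomial σ B) := (exists_dx pd w).choose

theorem dx_C (pd : Derivation ℂ B B) (w : σ → MvPolynomial σ B) (z : B) :
    dx pd w (C z) = C (pd z) := (exists_dx pd w).choose_spec.1 z

theorem dx_X (pd : Derivation ℂ B B) (w : σ → MvPolynomial σ B) (a : σ) : dx pd w (X a) = w a :=
  (exists_dx pd w).choose_spec.2 a

theorem br_ind (ψ : MvPolynomial σ B →ₐ[ℂ] A) (δ : Derivation ℂ (MvPolynomial σ B) (MvPolynomial σ B))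
    (e : A) (h1 : ∀ z, e * ψ (C z) = ψ (C z) * e + ψ (δ (C z)))
    (h2 : ∀ a, e * ψ (X a) = ψ (X a) * e + ψ (δ (X a))) (p : MvPolynomial σ B) :
    e * ψ p = ψ p * e + ψ (δ p) := by
  induction p using MvPolynomial.induction_on with
  | C z => exact h1 z
  | add p q hp hq => simp only [map_add, mul_add, add_mul, hp, hq]; abel
  | mul_X p a hp =>
    rw [Derivation.leibniz, smul_eq_mul, smul_eq_mul, mul_comm (X a), map_add, map_mul, map_mul,
      map_mul, ← mul_assoc, hp, add_mul, mul_assoc, h2, mul_add, mul_assoc, add_assoc]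

end Comm

variable {κ R A : Type} [CommRing R] [Algebra ℂ R] [Ring A] [Algebra ℂ A]

/-- The relations. -/
inductive DRel (δ : κ → Derivation ℂ R R) : FreeAlgebra ℂ (R ⊕ κ) → FreeAlgebra ℂ (R ⊕ κ) → Prop
  | add (a b : R) : DRel δ (.ι ℂ (.inl (a + b))) (.ι ℂ (.inl a) + .ι ℂ (.inl b))
  | mul (a b : R) : DRel δ (.ι ℂ (.inl (a * b))) (.ι ℂ (.inl a) * .ι ℂ (.inl b))
  | alg (c : ℂ) : DRel δ (.ι ℂ (.inl (algebraMap ℂ R c))) (algebraMap ℂ _ c)
  | dd (k l : κ) : DRel δ (.ι ℂ (.inr k) * .ι ℂ (.inr l)) (.ι ℂ (.inr l) * .ι ℂ (.inr k))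
  | br (k : κ) (a : R) : DRel δ (.ι ℂ (.inr k) * .ι ℂ (.inl a))
      (.ι ℂ (.inl a) * .ι ℂ (.inr k) + .ι ℂ (.inl (δ k a)))

/-- The ring generated by `R` and commuting operators `D k` with `[D k, r] = δ k r`. -/
def DO (δ : κ → Derivation ℂ R R) : Type := RingQuot (DRel δ)

namespace DO

variable {δ : κ → Derivation ℂ R R}

instance : Ring (DO δ) := inferInstanceAs (Ring (RingQuot (DRel δ)))

instance : Algebra ℂ (DO δ) := inferInstanceAs (Algebra ℂ (RingQuot (DRel δ)))

/-- The projection. -/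
def mk (δ : κ → Derivation ℂ R R) : FreeAlgebra ℂ (R ⊕ κ) →ₐ[ℂ] DO δ := RingQuot.mkAlgHom ℂ _

theorem mk_rel {x y} (h : DRel δ x y) : mk δ x = mk δ y := RingQuot.mkAlgHom_rel ℂ h

/-- The functions. -/
def of (δ : κ → Derivation ℂ R R) : R →ₐ[ℂ] DO δ where
  toFun a := mk δ (.ι ℂ (.inl a))
  map_one' := (congrArg (fun a => mk δ (.ι ℂ (.inl a))) (map_one _).symm).trans
    ((mk_rel (.alg 1)).trans (by rw [map_one, map_one]))
  map_mul' a b := (mk_rel (.mul a b)).trans (map_mul _ _ _)
  map_zero' := (congrArg (fun a => mk δ (.ι ℂ (.inl a))) (map_zero _).symm).trans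
    ((mk_rel (.alg 0)).trans (by rw [map_zero, map_zero]))
  map_add' a b := (mk_rel (.add a b)).trans (map_add _ _ _)
  commutes' c := (mk_rel (.alg c)).trans ((mk δ).commutes c)

/-- The vector fields. -/
def D (δ : κ → Derivation ℂ R R) (k : κ) : DO δ := mk δ (.ι ℂ (.inr k))

theorem D_D (k l : κ) : D δ k * D δ l = D δ l * D δ k :=
  (map_mul _ _ _).symm.trans ((mk_rel (.dd k l)).trans (map_mul _ _ _))

theorem D_of (k : κ) (a : R) : D δ k * of δ a = of δ a * D δ k + of δ (δ k a) :=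
  (map_mul _ _ _).symm.trans ((mk_rel (.br k a)).trans (by rw [map_add, map_mul]; rfl))

theorem of_of (a b : R) : of δ a * of δ b = of δ b * of δ a := by
  rw [← map_mul, ← map_mul, mul_comm]

/-- The universal property. -/
def lift (φ : R →ₐ[ℂ] A) (e : κ → A) (h1 : ∀ k l, e k * e l = e l * e k)
    (h2 : ∀ k a, e k * φ a = φ a * e k + φ (δ k a)) : DO δ →ₐ[ℂ] A :=
  RingQuot.liftAlgHom ℂ ⟨FreeAlgebra.lift ℂ (Sum.elim φ e), fun _ _ h => by
    cases h <;> simp only [map_add, map_mul, FreeAlgebra.lift_ι_apply, Sum.elim_inl, Sum.elim_inr,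
      AlgHom.commutes, h2]
    exact h1 _ _⟩

theorem lift_of (φ : R →ₐ[ℂ] A) (e : κ → A) (h1 h2) (a : R) :
    lift (δ := δ) φ e h1 h2 (of δ a) = φ a :=
  (RingQuot.liftAlgHom_mkAlgHom_apply ℂ _ _ _).trans (FreeAlgebra.lift_ι_apply _ _)

theorem lift_D (φ : R →ₐ[ℂ] A) (e : κ → A) (h1 h2) (k : κ) :
    lift (δ := δ) φ e h1 h2 (D δ k) = e k :=
  (RingQuot.liftAlgHom_mkAlgHom_apply ℂ _ _ _).trans (FreeAlgebra.lift_ι_apply _ _)

theorem ind {P : DO δ → Prop} (h0 : ∀ a, P (of δ a)) (h1 : ∀ k, P (D δ k))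
    (add : ∀ x y, P x → P y → P (x + y)) (mul : ∀ x y, P x → P y → P (x * y)) (x : DO δ) : P x := by
  obtain ⟨x, rfl⟩ : ∃ y, mk δ y = x := RingQuot.mkAlgHom_surjective ℂ _ x
  induction x using FreeAlgebra.induction with
  | grade0 c => rw [AlgHom.commutes, ← (of δ).commutes]; exact h0 _
  | grade1 s => rcases s with a | k; exacts [h0 a, h1 k]
  | mul x y hx hy => rw [map_mul]; exact mul _ _ hx hy
  | add x y hx hy => rw [map_add]; exact add _ _ hx hy

theorem hom_ext {φ ψ : DO δ →ₐ[ℂ] A} (h0 : ∀ a, φ (of δ a) = ψ (of δ a))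
    (h1 : ∀ k, φ (D δ k) = ψ (D δ k)) : φ = ψ := AlgHom.ext fun x => by
  induction x using ind with
  | h0 a => exact h0 a
  | h1 k => exact h1 k
  | add x y hx hy => rw [map_add, map_add, hx, hy]
  | mul x y hx hy => rw [map_mul, map_mul, hx, hy]

instance : Module R (DO δ) := Module.compHom _ (of δ).toRingHom

theorem smul_def (a : R) (x : DO δ) : a • x = of δ a * x := rfl

instance : IsScalarTower ℂ R (DO δ) :=
  ⟨fun c a x => by rw [smul_def, smul_def, map_smul, smul_mul_assoc]⟩

instance : IsScalarTower R (DO δ) (DO δ) := ⟨fun a x y => mul_assoc (of δ a) x y⟩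

instance : SMulCommClass ℂ R (DO δ) := ⟨fun c a x => (mul_smul_comm c (of δ a) x).symm⟩

instance : SMulCommClass R ℂ (DO δ) := SMulCommClass.symm _ _ _

/-- Polynomials in the vector fields. -/
def pw (δ : κ → Derivation ℂ R R) : MvPolynomial κ ℂ →ₐ[ℂ] DO δ :=
  cl (Algebra.ofId ℂ _) (D δ) D_D fun _ z => (Algebra.commutes z _).symm

theorem pw_X (k : κ) : pw δ (X k) = D δ k := cl_X _ _ _ _ k

/-- Normal ordering. -/
def no (δ : κ → Derivation ℂ R R) : MvPolynomial κ R →ₗ[R] DO δ :=
  (basisMonomials κ R).constr ℕ fun α => pw δ (monomial α 1)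

theorem no_mon (α : κ →₀ ℕ) (a : R) : no δ (monomial α a) = of δ a * pw δ (monomial α 1) := by
  rw [← mul_one a, ← smul_eq_mul, ← smul_monomial, map_smul, smul_eq_mul, mul_one]
  exact congrArg (of δ a * ·) ((basisMonomials κ R).constr_basis ℕ _ α)

theorem no_C (a : R) : no δ (C a) = of δ a := by
  rw [C_apply, no_mon, ← C_apply, map_one, map_one, mul_one]

theorem no_one : no δ 1 = 1 := (no_C 1).trans (map_one _)

theorem no_C_mul (a : R) (p : MvPolynomial κ R) : no δ (C a * p) = of δ a * no δ p := by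
  rw [← smul_eq_C_mul, map_smul, smul_def]

theorem no_mul_X (p : MvPolynomial κ R) (k : κ) : no δ (p * X k) = no δ p * D δ k := by
  induction p using MvPolynomial.induction_on' with
  | monomial α a =>
    rw [X, monomial_mul, mul_one, no_mon, no_mon, mul_assoc, ← pw_X, ← map_mul, X, monomial_mul,
      mul_one]
  | add p q hp hq => rw [add_mul, map_add, map_add, hp, hq, add_mul]

theorem D_no (k : κ) (p : MvPolynomial κ R) :
    D δ k * no δ p = no δ (p * X k + dx (δ k) 0 p) := by
  induction p using MvPolynomial.induction_on with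
  | C a => rw [map_add, no_mul_X, dx_C, no_C, no_C, D_of]
  | add p q hp hq => simp only [map_add, mul_add, add_mul, hp, hq]; abel
  | mul_X p l hp =>
    rw [no_mul_X, ← mul_assoc, hp, ← no_mul_X, Derivation.leibniz, dx_X, Pi.zero_apply, smul_zero,
      zero_add, smul_eq_mul]
    exact congrArg _ (by ring)

theorem no_surj : Function.Surjective (no δ) := fun x => by
  suffices h : ∀ p, ∃ q, no δ q = x * no δ p by simpa [no_one] using h 1
  induction x using ind with
  | h0 a => exact fun p => ⟨_, no_C_mul a p⟩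
  | h1 k => exact fun p => ⟨_, (D_no k p).symm⟩
  | add x y hx hy =>
    intro p
    obtain ⟨q, hq⟩ := hx p
    obtain ⟨r, hr⟩ := hy p
    exact ⟨q + r, by rw [map_add, hq, hr, add_mul]⟩
  | mul x y hx hy =>
    intro p
    obtain ⟨r, hr⟩ := hy p
    obtain ⟨q, hq⟩ := hx r
    exact ⟨q, by rw [hq, hr, mul_assoc]⟩

/-- The derivations commute. -/
def Cm (δ : κ → Derivation ℂ R R) : Prop := ∀ k l a, δ k (δ l a) = δ l (δ k a)

theorem dx_dx (h : Cm δ) (k l : κ) (p : MvPolynomial κ R) :
    dx (δ k) 0 (dx (δ l) 0 p) = dx (δ l) 0 (dx (δ k) 0 p) := by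
  induction p using MvPolynomial.induction_on with
  | C a => rw [dx_C, dx_C, dx_C, dx_C, h]
  | add p q hp hq => simp only [map_add, hp, hq]
  | mul_X p l hp =>
    simp only [Derivation.leibniz, dx_X, Pi.zero_apply, smul_zero, zero_add, smul_eq_mul, hp,
      mul_zero, add_zero]

/-- The action on the symbols. -/
def rep (h : Cm δ) : DO δ →ₐ[ℂ] Module.End ℂ (MvPolynomial κ R) :=
  lift ((Algebra.lmul ℂ _).comp (IsScalarTower.toAlgHom ℂ R _))
    (fun k => LinearMap.mulRight ℂ (X k) + (dx (δ k) 0).toLinearMap)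
    (fun k l => LinearMap.ext fun p => by
      simp only [Module.End.mul_apply, LinearMap.add_apply, LinearMap.mulRight_apply, map_add,
        Derivation.coeFn_coe, Derivation.leibniz, dx_X, Pi.zero_apply, smul_zero, zero_add,
        smul_eq_mul, dx_dx h k l, mul_zero]
      ring)
    fun k a => LinearMap.ext fun p => by
      change C a * p * X k + dx (δ k) 0 (C a * p) = C a * (p * X k + dx (δ k) 0 p) + C (δ k a) * p
      rw [Derivation.leibniz, dx_C, smul_eq_mul, smul_eq_mul]
      ring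

theorem rep_of (h : Cm δ) (a : R) (p : MvPolynomial κ R) : rep h (of δ a) p = C a * p := by
  rw [rep, lift_of]; rfl

theorem rep_D (h : Cm δ) (k : κ) (p : MvPolynomial κ R) :
    rep h (D δ k) p = p * X k + dx (δ k) 0 p := by
  rw [rep, lift_D]; rfl

theorem rep_no (h : Cm δ) (p : MvPolynomial κ R) : rep h (no δ p) 1 = p := by
  have e : ∀ q : MvPolynomial κ ℂ, ∀ r : MvPolynomial κ ℂ,
      rep h (pw δ q) (map (algebraMap ℂ R) r) = map (algebraMap ℂ R) (q * r) := fun q => by
    induction q using MvPolynomial.induction_on with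
    | C c =>
      intro r
      rw [← algebraMap_eq, AlgHom.commutes, AlgHom.commutes, Module.algebraMap_end_apply, map_mul,
        algebraMap_eq, map_C, Algebra.smul_def]
      rfl
    | add p q hp hq => intro r; simp only [map_add, add_mul, LinearMap.add_apply, hp, hq]
    | mul_X p k hp =>
      intro r
      have z : dx (δ k) 0 (map (algebraMap ℂ R) r) = 0 := by
        induction r using MvPolynomial.induction_on with
        | C c => rw [map_C, dx_C, Derivation.map_algebraMap, map_zero]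
        | add p q hp hq => rw [map_add, map_add, hp, hq, add_zero]
        | mul_X p l hp => simp [hp, dx_X]
      rw [map_mul, map_mul, Module.End.mul_apply, pw_X, rep_D, z, add_zero, ← map_X (algebraMap ℂ R),
        ← map_mul, hp, mul_assoc, mul_comm r]
  induction p using MvPolynomial.induction_on' with
  | monomial α a =>
    rw [no_mon, map_mul, Module.End.mul_apply, ← map_one (map (algebraMap ℂ R)), e, rep_of, mul_one,
      map_monomial, map_one, C_mul_monomial, mul_one]
  | add p q hp hq => rw [map_add, map_add, LinearMap.add_apply, hp, hq]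

theorem no_inj (h : Cm δ) : Function.Injective (no δ) :=
  Function.LeftInverse.injective (g := fun x => rep h x 1) (rep_no h)

/-- Normal ordering is bijective. -/
def pbw (h : Cm δ) : MvPolynomial κ R ≃ₗ[R] DO δ := .ofBijective (no δ) ⟨no_inj h, no_surj⟩

theorem pbw_apply (h : Cm δ) (p : MvPolynomial κ R) : pbw h p = no δ p := rfl

/-- The monomials in the vector fields form a basis. -/
def bas (h : Cm δ) : Module.Basis (κ →₀ ℕ) R (DO δ) := (basisMonomials κ R).map (pbw h)

theorem bas_apply (h : Cm δ) (α : κ →₀ ℕ) : bas h α = pw δ (monomial α 1) :=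
  (no_mon α 1).trans (by rw [map_one, one_mul])

/-- The transposition. -/
def tp (δ : κ → Derivation ℂ R R) : DO δ →ₐ[ℂ] (DO δ)ᵐᵒᵖ :=
  lift ((AlgHom.toOpposite (of δ) fun a b => of_of a b)) (fun k => op (-D δ k))
    (fun k l => by rw [← op_mul, ← op_mul, neg_mul_neg, neg_mul_neg, D_D])
    fun k a => by
      change op (of δ a * -D δ k) = op (-D δ k * of δ a + of δ (δ k a))
      rw [neg_mul, D_of, mul_neg, neg_add, neg_add_cancel_right]

/-- The transposition, as a linear map. -/
def tr (δ : κ → Derivation ℂ R R) : DO δ →ₗ[ℂ] DO δ :=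
  (opLinearEquiv ℂ).symm.toLinearMap.comp (tp δ).toLinearMap

theorem tr_mul (x y : DO δ) : tr δ (x * y) = tr δ y * tr δ x := congrArg unop (map_mul (tp δ) x y)

theorem tr_of (a : R) : tr δ (of δ a) = of δ a := congrArg unop (lift_of _ _ _ _ a)

theorem tr_D (k : κ) : tr δ (D δ k) = -D δ k := congrArg unop (lift_D _ _ _ _ k)

theorem tr_tr (x : DO δ) : tr δ (tr δ x) = x := by
  induction x using ind with
  | h0 a => rw [tr_of, tr_of]
  | h1 k => rw [tr_D, map_neg, tr_D, neg_neg]
  | add x y hx hy => rw [map_add, map_add, hx, hy]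
  | mul x y hx hy => rw [tr_mul, tr_mul, hx, hy]

end DO

end

end Vale.Agent.P286EI
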