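import Mathlib

/-!
The tensor product with the exterior algebra on three generators.
-/

set_option autoImplicit false
set_option linter.all false

namespace Vale.Agent.P286EI

noncomputable section

/-- The elements `s + ∑ v_a i_a + ∑ w_a j_a + t i_0 i_1 i_2`, `j_0 = i_1 i_2`, `j_1 = i_2 i_0`,
`j_2 = i_0 i_1`. -/
@[ext]
structure L3 (N : Type) : Type where
  s : N
  v : Fin 3 → N
  w : Fin 3 → N
  t : N

namespace L3

variable {R S N N' N'' : Type} [CommRing R] [CommRing S] [AddCommGroup N] [AddCommGroup N']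
  [AddCommGroup N'']

/-- The components. -/
def eqv (N : Type) : L3 N ≃ N × (Fin 3 → N) × (Fin 3 → N) × N where
  toFun x := (x.s, x.v, x.w, x.t)
  invFun x := ⟨x.1, x.2.1, x.2.2.1, x.2.2.2⟩

instance : AddCommGroup (L3 N) := (eqv N).addCommGroup

instance [Module R N] : Module R (L3 N) := (eqv N).module R

@[simp] theorem zero_s : (0 : L3 N).s = 0 := rfl
@[simp] theorem zero_v : (0 : L3 N).v = 0 := rfl
@[simp] theorem zero_w : (0 : L3 N).w = 0 := rfl
@[simp] theorem zero_t : (0 : L3 N).t = 0 := rfl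
@[simp] theorem add_s (x y : L3 N) : (x + y).s = x.s + y.s := rfl
@[simp] theorem add_v (x y : L3 N) : (x + y).v = x.v + y.v := rfl
@[simp] theorem add_w (x y : L3 N) : (x + y).w = x.w + y.w := rfl
@[simp] theorem add_t (x y : L3 N) : (x + y).t = x.t + y.t := rfl
@[simp] theorem neg_s (x : L3 N) : (-x).s = -x.s := rfl
@[simp] theorem neg_v (x : L3 N) : (-x).v = -x.v := rfl
@[simp] theorem neg_w (x : L3 N) : (-x).w = -x.w := rfl
@[simp] theorem neg_t (x : L3 N) : (-x).t = -x.t := rfl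
@[simp] theorem sub_s (x y : L3 N) : (x - y).s = x.s - y.s := rfl
@[simp] theorem sub_v (x y : L3 N) : (x - y).v = x.v - y.v := rfl
@[simp] theorem sub_w (x y : L3 N) : (x - y).w = x.w - y.w := rfl
@[simp] theorem sub_t (x y : L3 N) : (x - y).t = x.t - y.t := rfl

theorem ext8 {x y : L3 N} (s : x.s = y.s) (v0 : x.v 0 = y.v 0) (v1 : x.v 1 = y.v 1)
    (v2 : x.v 2 = y.v 2) (w0 : x.w 0 = y.w 0) (w1 : x.w 1 = y.w 1) (w2 : x.w 2 = y.w 2)
    (t : x.t = y.t) : x = y :=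
  L3.ext s (funext fun i => by fin_cases i; exacts [v0, v1, v2])
    (funext fun i => by fin_cases i; exacts [w0, w1, w2]) t

variable [Module R N] [Module R N'] [Module R N'']

@[simp] theorem smul_s (c : R) (x : L3 N) : (c • x).s = c • x.s := rfl
@[simp] theorem smul_v (c : R) (x : L3 N) : (c • x).v = c • x.v := rfl
@[simp] theorem smul_w (c : R) (x : L3 N) : (c • x).w = c • x.w := rfl
@[simp] theorem smul_t (c : R) (x : L3 N) : (c • x).t = c • x.t := rfl

instance [Module S N] [SMul R S] [IsScalarTower R S N] : IsScalarTower R S (L3 N) :=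
  ⟨fun a b x => L3.ext (smul_assoc a b x.s) (smul_assoc a b x.v) (smul_assoc a b x.w)
    (smul_assoc a b x.t)⟩

instance [Module S N] [SMulCommClass R S N] : SMulCommClass R S (L3 N) :=
  ⟨fun a b x => L3.ext (smul_comm a b x.s) (smul_comm a b x.v) (smul_comm a b x.w)
    (smul_comm a b x.t)⟩

/-- A linear map given by its components. -/
def mkL {σ : R →+* S} {P : Type} [AddCommGroup P] [Module R P] [Module S N']
    (s : P →ₛₗ[σ] N') (v w : Fin 3 → P →ₛₗ[σ] N') (t : P →ₛₗ[σ] N') : P →ₛₗ[σ] L3 N' where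
  toFun x := ⟨s x, fun a => v a x, fun a => w a x, t x⟩
  map_add' x y := L3.ext (map_add s x y) (funext fun a => map_add (v a) x y)
    (funext fun a => map_add (w a) x y) (map_add t x y)
  map_smul' c x := L3.ext (map_smulₛₗ s c x) (funext fun a => map_smulₛₗ (v a) c x)
    (funext fun a => map_smulₛₗ (w a) c x) (map_smulₛₗ t c x)

variable (R N)

/-- The component without ghosts. -/
def ps : L3 N →ₗ[R] N := ⟨⟨s, add_s⟩, smul_s⟩

/-- The components of degree `-1`. -/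
def pv (a : Fin 3) : L3 N →ₗ[R] N := ⟨⟨fun x => x.v a, fun _ _ => rfl⟩, fun _ _ => rfl⟩

/-- The components of degree `-2`. -/
def pw (a : Fin 3) : L3 N →ₗ[R] N := ⟨⟨fun x => x.w a, fun _ _ => rfl⟩, fun _ _ => rfl⟩

/-- The component of degree `-3`. -/
def pt : L3 N →ₗ[R] N := ⟨⟨t, add_t⟩, smul_t⟩

/-- The inclusion of the part without ghosts. -/
def inl : N →ₗ[R] L3 N := mkL LinearMap.id 0 0 0

/-- The sign operator. -/
def sg : L3 N →ₗ[R] L3 N := mkL (ps R N) (fun a => -pv R N a) (pw R N) (-pt R N)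

/-- The cross product of the basis vector `a` with a vector. -/
def cx (a : Fin 3) : (Fin 3 → N) →ₗ[R] (Fin 3 → N) where
  toFun v := ![![0, -v 2, v 1], ![v 2, 0, -v 0], ![-v 1, v 0, 0]] a
  map_add' u v := by ext i; fin_cases a <;> fin_cases i <;> simp [add_comm]
  map_smul' c v := by ext i; fin_cases a <;> fin_cases i <;> simp

/-- Exterior multiplication with `i_a`. -/
def wg (a : Fin 3) : L3 N →ₗ[R] L3 N where
  toFun x := ⟨0, Pi.single a x.s, cx R N a x.v, x.w a⟩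
  map_add' x y := L3.ext (add_zero _).symm (Pi.single_add a _ _) (map_add _ _ _) rfl
  map_smul' c x := L3.ext (smul_zero _).symm (Pi.single_smul a c _) (map_smul _ _ _) rfl

/-- Contraction. -/
def ct (a : Fin 3) : L3 N →ₗ[R] L3 N where
  toFun x := ⟨x.v a, -cx R N a x.w, Pi.single a x.t, 0⟩
  map_add' x y := L3.ext rfl ((congrArg Neg.neg (map_add _ _ _)).trans (neg_add _ _))
    (Pi.single_add a _ _) (add_zero _).symm
  map_smul' c x := L3.ext rfl ((congrArg Neg.neg (map_smul _ _ _)).trans (smul_neg _ _).symm)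
    (Pi.single_smul a c _) (smul_zero _).symm

/-- The action of the rotation `a` on the ghosts. -/
def ad (a : Fin 3) : L3 N →ₗ[R] L3 N where
  toFun x := ⟨0, cx R N a x.v, cx R N a x.w, 0⟩
  map_add' x y := L3.ext (add_zero _).symm (map_add _ _ _) (map_add _ _ _) (add_zero _).symm
  map_smul' c x := L3.ext (smul_zero _).symm (map_smul _ _ _) (map_smul _ _ _) (smul_zero _).symm

/-- The grading. -/
def gr (m : ℤ) : Submodule R (L3 N) where
  carrier := {x | (m ≠ 0 → x.s = 0) ∧ (m ≠ -1 → x.v = 0) ∧ (m ≠ -2 → x.w = 0) ∧ (m ≠ -3 → x.t = 0)}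
  add_mem' hx hy := ⟨fun h => by rw [add_s, hx.1 h, hy.1 h, add_zero],
    fun h => by rw [add_v, hx.2.1 h, hy.2.1 h, add_zero],
    fun h => by rw [add_w, hx.2.2.1 h, hy.2.2.1 h, add_zero],
    fun h => by rw [add_t, hx.2.2.2 h, hy.2.2.2 h, add_zero]⟩
  zero_mem' := ⟨fun _ => rfl, fun _ => rfl, fun _ => rfl, fun _ => rfl⟩
  smul_mem' c x hx := ⟨fun h => by rw [smul_s, hx.1 h, smul_zero],
    fun h => by rw [smul_v, hx.2.1 h, smul_zero], fun h => by rw [smul_w, hx.2.2.1 h, smul_zero],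
    fun h => by rw [smul_t, hx.2.2.2 h, smul_zero]⟩

/-- The projection to the degree `m`. -/
def pr (m : ℤ) : L3 N →ₗ[R] L3 N :=
  mkL (if m = 0 then ps R N else 0) (if m = -1 then pv R N else 0) (if m = -2 then pw R N else 0)
    (if m = -3 then pt R N else 0)

variable {R N}

/-- The functoriality. -/
def map {σ : R →+* S} [Module S N'] (f : N →ₛₗ[σ] N') : L3 N →ₛₗ[σ] L3 N' :=
  mkL (f.comp (ps R N)) (fun a => f.comp (pv R N a)) (fun a => f.comp (pw R N a)) (f.comp (pt R N))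

theorem map_apply {σ : R →+* S} [Module S N'] (f : N →ₛₗ[σ] N') (x : L3 N) :
    map f x = ⟨f x.s, fun a => f (x.v a), fun a => f (x.w a), f x.t⟩ := rfl

theorem inl_apply (x : N) : inl R N x = ⟨x, 0, 0, 0⟩ := rfl

theorem sg_apply (x : L3 N) : sg R N x = ⟨x.s, -x.v, x.w, -x.t⟩ := rfl

theorem cx_apply (a : Fin 3) (v : Fin 3 → N) :
    cx R N a v = ![![0, -v 2, v 1], ![v 2, 0, -v 0], ![-v 1, v 0, 0]] a := rfl

theorem wg_apply (a : Fin 3) (x : L3 N) :
    wg R N a x = ⟨0, Pi.single a x.s, cx R N a x.v, x.w a⟩ := rfl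

theorem ct_apply (a : Fin 3) (x : L3 N) :
    ct R N a x = ⟨x.v a, -cx R N a x.w, Pi.single a x.t, 0⟩ := rfl

theorem ad_apply (a : Fin 3) (x : L3 N) : ad R N a x = ⟨0, cx R N a x.v, cx R N a x.w, 0⟩ := rfl

theorem pr_apply (m : ℤ) (x : L3 N) : pr R N m x = ⟨if m = 0 then x.s else 0,
    if m = -1 then x.v else 0, if m = -2 then x.w else 0, if m = -3 then x.t else 0⟩ := by
  refine L3.ext ?_ ?_ ?_ ?_ <;> simp only [pr, mkL, LinearMap.coe_mk, AddHom.coe_mk] <;>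
    split_ifs <;> rfl

theorem mem_gr {m : ℤ} {x : L3 N} : x ∈ gr R N m ↔
    (m ≠ 0 → x.s = 0) ∧ (m ≠ -1 → x.v = 0) ∧ (m ≠ -2 → x.w = 0) ∧ (m ≠ -3 → x.t = 0) := Iff.rfl

theorem gr_cases {m : ℤ} {x : L3 N} (h : x ∈ gr R N m) : (m = 0 ∧ x = ⟨x.s, 0, 0, 0⟩) ∨
    (m = -1 ∧ x = ⟨0, x.v, 0, 0⟩) ∨ (m = -2 ∧ x = ⟨0, 0, x.w, 0⟩) ∨ (m = -3 ∧ x = ⟨0, 0, 0, x.t⟩) ∨
    x = 0 := by
  obtain ⟨h0, h1, h2, h3⟩ := h
  by_cases a : m = 0
  · exact .inl ⟨a, L3.ext rfl (h1 (by omega)) (h2 (by omega)) (h3 (by omega))⟩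
  by_cases b : m = -1
  · exact .inr (.inl ⟨b, L3.ext (h0 a) rfl (h2 (by omega)) (h3 (by omega))⟩)
  by_cases c : m = -2
  · exact .inr (.inr (.inl ⟨c, L3.ext (h0 a) (h1 b) rfl (h3 (by omega))⟩))
  by_cases e : m = -3
  · exact .inr (.inr (.inr (.inl ⟨e, L3.ext (h0 a) (h1 b) (h2 c) rfl⟩)))
  · exact .inr (.inr (.inr (.inr (L3.ext (h0 a) (h1 b) (h2 c) (h3 e)))))

theorem pr_mem (m : ℤ) (x : L3 N) : pr R N m x ∈ gr R N m := by
  rw [pr_apply]
  exact ⟨fun h => if_neg h, fun h => if_neg h, fun h => if_neg h, fun h => if_neg h⟩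

theorem pr_self {m : ℤ} {x : L3 N} (h : x ∈ gr R N m) : pr R N m x = x := by
  rw [pr_apply]
  refine L3.ext ?_ ?_ ?_ ?_ <;> dsimp only <;> split_ifs with e
  exacts [rfl, (h.1 e).symm, rfl, (h.2.1 e).symm, rfl, (h.2.2.1 e).symm, rfl, (h.2.2.2 e).symm]

theorem pr_ne {m n : ℤ} (e : m ≠ n) {x : L3 N} (h : x ∈ gr R N m) : pr R N n x = 0 := by
  rw [pr_apply]
  refine L3.ext ?_ ?_ ?_ ?_ <;> dsimp only <;> split_ifs with e
  exacts [h.1 (by omega), rfl, h.2.1 (by omega), rfl, h.2.2.1 (by omega), rfl, h.2.2.2 (by omega),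
    rfl]

theorem pr_sum (x : L3 N) : x = pr R N 0 x + pr R N (-1) x + pr R N (-2) x + pr R N (-3) x := by
  refine L3.ext ?_ ?_ ?_ ?_ <;> simp [pr_apply]

theorem sg_gr {m : ℤ} {x : L3 N} (h : x ∈ gr R N m) : sg R N x = (m.negOnePow : ℤ) • x := by
  rcases gr_cases h with ⟨rfl, e⟩ | ⟨rfl, e⟩ | ⟨rfl, e⟩ | ⟨rfl, e⟩ | rfl
  · rw [e]; simp [sg_apply]
  · rw [e, Int.negOnePow_odd _ (by decide)]; refine L3.ext ?_ ?_ ?_ ?_ <;> simp [sg_apply]
  · rw [e, Int.negOnePow_even _ (by decide)]; simp [sg_apply]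
  · rw [e, Int.negOnePow_odd _ (by decide)]; refine L3.ext ?_ ?_ ?_ ?_ <;> simp [sg_apply]
  · simp

theorem wg_mem (a : Fin 3) {m : ℤ} {x : L3 N} (h : x ∈ gr R N m) : wg R N a x ∈ gr R N (m - 1) :=
  ⟨fun _ => rfl, fun e => by rw [wg_apply, h.1 (by omega)]; exact Pi.single_zero a,
    fun e => by rw [wg_apply, h.2.1 (by omega)]; exact map_zero _,
    fun e => by rw [wg_apply, h.2.2.1 (by omega)]; rfl⟩

theorem map_mem {σ : R →+* S} [Module S N'] (f : N →ₛₗ[σ] N') {m : ℤ} {x : L3 N}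
    (h : x ∈ gr R N m) : map f x ∈ gr S N' m :=
  ⟨fun e => by rw [map_apply, h.1 e]; exact map_zero f,
    fun e => funext fun a => by rw [map_apply, h.2.1 e]; exact map_zero f,
    fun e => funext fun a => by rw [map_apply, h.2.2.1 e]; exact map_zero f,
    fun e => by rw [map_apply, h.2.2.2 e]; exact map_zero f⟩

theorem wg_wg (a b : Fin 3) (x : L3 N) : wg R N a (wg R N b x) = -wg R N b (wg R N a x) := by
  fin_cases a <;> fin_cases b <;> refine ext8 ?_ ?_ ?_ ?_ ?_ ?_ ?_ ?_ <;> simp [wg_apply, cx_apply]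

theorem ct_wg (a b : Fin 3) (x : L3 N) :
    ct R N a (wg R N b x) = (if a = b then x else 0) - wg R N b (ct R N a x) := by
  fin_cases a <;> fin_cases b <;> refine ext8 ?_ ?_ ?_ ?_ ?_ ?_ ?_ ?_ <;>
    simp [wg_apply, ct_apply, cx_apply]

theorem ct_inl (a : Fin 3) (x : N) : ct R N a (inl R N x) = 0 := by
  refine L3.ext ?_ ?_ ?_ ?_ <;> simp [ct_apply, inl_apply]

theorem sg_wg (a : Fin 3) (x : L3 N) : sg R N (wg R N a x) = -wg R N a (sg R N x) := by
  refine L3.ext ?_ ?_ ?_ ?_ <;> simp [wg_apply, sg_apply]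

theorem sg_sg (x : L3 N) : sg R N (sg R N x) = x := by simp [sg_apply]

theorem map_wg {σ : R →+* S} [Module S N'] (f : N →ₛₗ[σ] N') (a : Fin 3) (x : L3 N) :
    map f (wg R N a x) = wg S N' a (map f x) := by
  fin_cases a <;> refine ext8 ?_ ?_ ?_ ?_ ?_ ?_ ?_ ?_ <;> simp [wg_apply, map_apply, cx_apply]

theorem map_ct {σ : R →+* S} [Module S N'] (f : N →ₛₗ[σ] N') (a : Fin 3) (x : L3 N) :
    map f (ct R N a x) = ct S N' a (map f x) := by
  fin_cases a <;> refine ext8 ?_ ?_ ?_ ?_ ?_ ?_ ?_ ?_ <;> simp [ct_apply, map_apply, cx_apply]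

theorem map_ad {σ : R →+* S} [Module S N'] (f : N →ₛₗ[σ] N') (a : Fin 3) (x : L3 N) :
    map f (ad R N a x) = ad S N' a (map f x) := by
  fin_cases a <;> refine ext8 ?_ ?_ ?_ ?_ ?_ ?_ ?_ ?_ <;> simp [ad_apply, map_apply, cx_apply]

theorem map_inl {σ : R →+* S} [Module S N'] (f : N →ₛₗ[σ] N') (x : N) :
    map f (inl R N x) = inl S N' (f x) := by
  refine ext8 ?_ ?_ ?_ ?_ ?_ ?_ ?_ ?_ <;> simp [inl_apply, map_apply]

theorem dec (x : L3 N) : x = inl R N x.s + (wg R N 0 (inl R N (x.v 0)) + wg R N 1 (inl R N (x.v 1)) +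
    wg R N 2 (inl R N (x.v 2))) + (wg R N 1 (wg R N 2 (inl R N (x.w 0))) +
    wg R N 2 (wg R N 0 (inl R N (x.w 1))) + wg R N 0 (wg R N 1 (inl R N (x.w 2)))) +
    wg R N 0 (wg R N 1 (wg R N 2 (inl R N x.t))) := by
  refine ext8 ?_ ?_ ?_ ?_ ?_ ?_ ?_ ?_ <;> simp [wg_apply, inl_apply, cx_apply]

variable (R) in
theorem ind {P : L3 N → Prop} (h0 : ∀ z, P (inl R N z)) (h1 : ∀ a x, P x → P (wg R N a x))
    (add : ∀ x y, P x → P y → P (x + y)) (x : L3 N) : P x := by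
  rw [dec (R := R) x]
  exact add _ _ (add _ _ (add _ _ (h0 _) (add _ _ (add _ _ (h1 _ _ (h0 _)) (h1 _ _ (h0 _)))
    (h1 _ _ (h0 _)))) (add _ _ (add _ _ (h1 _ _ (h1 _ _ (h0 _))) (h1 _ _ (h1 _ _ (h0 _))))
    (h1 _ _ (h1 _ _ (h0 _))))) (h1 _ _ (h1 _ _ (h1 _ _ (h0 _))))

variable (R N) in
/-- The coefficients in the basis `i_S`. -/
def co : L3 N ≃ₗ[R] (Finset (Fin 3) → N) where
  toFun x S := if 0 ∈ S then (if 1 ∈ S then (if 2 ∈ S then x.t else x.w 2) else
    (if 2 ∈ S then -x.w 1 else x.v 0)) else (if 1 ∈ S then (if 2 ∈ S then x.w 0 else x.v 1) else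
    (if 2 ∈ S then x.v 2 else x.s))
  invFun f := ⟨f ∅, ![f {0}, f {1}, f {2}], ![f {1, 2}, -f {0, 2}, f {0, 1}], f {0, 1, 2}⟩
  map_add' x y := funext fun S => by
    simp only [Pi.add_apply]
    split_ifs <;> simp [add_comm]
  map_smul' c x := funext fun S => by
    simp only [Pi.smul_apply, RingHom.id_apply]
    split_ifs <;> simp
  left_inv x := by refine ext8 ?_ ?_ ?_ ?_ ?_ ?_ ?_ ?_ <;> simp
  right_inv f := funext fun S => by
    dsimp only
    split_ifs with a b c d e g h <;> (try simp only [Matrix.cons_val, neg_neg]) <;>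
      refine congrArg f (Finset.ext fun i => ?_) <;> fin_cases i <;> simp [*]

variable (R) in
/-- The element `z i_S`. -/
def sgl (S : Finset (Fin 3)) (z : N) : L3 N := (co R N).symm (Pi.single S z)

theorem sgl_apply (S : Finset (Fin 3)) (z : N) : sgl R S z =
    ⟨if S = ∅ then z else 0, ![if S = {0} then z else 0, if S = {1} then z else 0,
      if S = {2} then z else 0], ![if S = {1, 2} then z else 0, -if S = {0, 2} then z else 0,
      if S = {0, 1} then z else 0], if S = {0, 1, 2} then z else 0⟩ := by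
  simp only [eq_comm (a := S), ← Pi.single_apply]
  rfl

theorem fin8 {P : Finset (Fin 3) → Prop} (h0 : P ∅) (h1 : P {0}) (h2 : P {1}) (h3 : P {2})
    (h4 : P {1, 2}) (h5 : P {0, 2}) (h6 : P {0, 1}) (h7 : P {0, 1, 2}) (S : Finset (Fin 3)) :
    P S := by
  have h : ∀ S : Finset (Fin 3), S = ∅ ∨ S = {0} ∨ S = {1} ∨ S = {2} ∨ S = {1, 2} ∨ S = {0, 2} ∨
    S = {0, 1} ∨ S = {0, 1, 2} := by decide
  rcases h S with rfl | rfl | rfl | rfl | rfl | rfl | rfl | rfl <;> assumption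

theorem sgl_empty (z : N) : sgl R ∅ z = inl R N z := by
  rw [sgl_apply]
  refine ext8 ?_ ?_ ?_ ?_ ?_ ?_ ?_ ?_ <;> simp +decide [inl_apply]

theorem sgl_mem (S : Finset (Fin 3)) (z : N) : sgl R S z ∈ gr R N (-(S.card : ℤ)) := by
  rw [sgl_apply]
  refine ⟨fun h => if_neg ?_, fun h => funext fun i => ?_, fun h => funext fun i => ?_,
    fun h => if_neg ?_⟩
  · rintro rfl; exact h rfl
  · fin_cases i <;> exact if_neg (by rintro rfl; exact h rfl)
  · fin_cases i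
    · exact if_neg (by rintro rfl; exact h rfl)
    · exact neg_eq_zero.2 (if_neg (by rintro rfl; exact h rfl))
    · exact if_neg (by rintro rfl; exact h rfl)
  · rintro rfl; exact h rfl

theorem wg_sgl (a : Fin 3) (S : Finset (Fin 3)) (z : N) : wg R N a (sgl R S z) =
    if a ∈ S then 0 else (-1 : R) ^ (S.filter (· < a)).card • sgl R (insert a S) z := by
  have c : ∀ (a : Fin 3) (S : Finset (Fin 3)), (S.filter (· < a)).card =
    if (a = 1 ∧ 0 ∈ S) ∨ (a = 2 ∧ (0 ∈ S ∨ 1 ∈ S)) then (if a = 2 ∧ 0 ∈ S ∧ 1 ∈ S then 2 else 1)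
      else 0 := by decide
  rw [c, sgl_apply, sgl_apply]
  induction S using fin8 <;> fin_cases a <;> refine ext8 ?_ ?_ ?_ ?_ ?_ ?_ ?_ ?_ <;>
    simp +decide [wg_apply, cx_apply]

theorem map_sgl {σ : R →+* S} [Module S N'] (f : N →ₛₗ[σ] N') (T : Finset (Fin 3)) (z : N) :
    map f (sgl R T z) = sgl S T (f z) := by
  rw [sgl_apply, sgl_apply]
  refine ext8 ?_ ?_ ?_ ?_ ?_ ?_ ?_ ?_ <;> simp [map_apply, apply_ite f]

/-- The basis `b_β i_S`. -/
def bas {β : Type} (b : Module.Basis β R N) : Module.Basis (Finset (Fin 3) × β) R (L3 N) :=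
  ((Pi.basis fun _ : Finset (Fin 3) => b).reindex (Equiv.sigmaEquivProd _ _)).map (co R N).symm

theorem bas_apply {β : Type} (b : Module.Basis β R N) (S : Finset (Fin 3)) (k : β) :
    bas b (S, k) = sgl R S (b k) := by
  rw [bas, Module.Basis.map_apply, Module.Basis.reindex_apply, Pi.basis_apply]
  rfl

end L3

end

end Vale.Agent.P286EI
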