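import Vale.Agent.P286EI.Onto

/-!
Invariants of the Lie algebras.
-/

set_option autoImplicit false
set_option linter.all false

namespace Vale.Agent.P286EI

open Matrix MvPolynomial Complex

noncomputable section

/-- The infinitesimal rotation about the vector `n`. -/
def rot (n : Fin 3 → ℂ) : Derivation ℂ PP PP :=
  mkDerivation ℂ (Sum.elim ((C ∘ n) ⨯₃ xv) ((C ∘ n) ⨯₃ kv))

theorem rot_x (n : Fin 3 → ℂ) : rot n ∘ xv = (C ∘ n) ⨯₃ xv :=
  funext fun _ => mkDerivation_X _ _ _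

theorem rot_k (n : Fin 3 → ℂ) : rot n ∘ kv = (C ∘ n) ⨯₃ kv :=
  funext fun _ => mkDerivation_X _ _ _

theorem flow {σ : Type} {δ : Derivation ℂ (MvPolynomial σ ℂ) (MvPolynomial σ ℂ)}
    (φ : MvPolynomial σ ℂ →ₐ[ℂ] Polynomial ℂ)
    (h : ∀ i, Polynomial.derivative (φ (X i)) = φ (δ (X i))) {f : MvPolynomial σ ℂ} (hf : δ f = 0)
    (s t : ℂ) : (φ f).eval s = (φ f).eval t := by
  have e : ∀ g, Polynomial.derivative (φ g) = φ (δ g) := fun g => by
    induction g using MvPolynomial.induction_on with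
    | C c =>
      rw [derivation_C, map_zero, ← algebraMap_eq, φ.commutes]
      exact Polynomial.derivative_C
    | add p q hp hq => simp only [map_add, hp, hq]
    | mul_X p i hp =>
      rw [map_mul, Polynomial.derivative_mul, hp, h, Derivation.leibniz, smul_eq_mul, smul_eq_mul,
        map_add, map_mul, map_mul]
      ring
  rw [Polynomial.eq_C_of_derivative_eq_zero ((e f).trans (by rw [hf, map_zero])),
    Polynomial.eval_C, Polynomial.eval_C]

section

variable {B : Type} [CommRing B]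

theorem cr0 (u v : Fin 3 → B) : (u ⨯₃ v) 0 = u 1 * v 2 - u 2 * v 1 := rfl

theorem cr1 (u v : Fin 3 → B) : (u ⨯₃ v) 1 = u 2 * v 0 - u 0 * v 2 := rfl

theorem cr2 (u v : Fin 3 → B) : (u ⨯₃ v) 2 = u 0 * v 1 - u 1 * v 0 := rfl

theorem dt3 (u v : Fin 3 → B) : u ⬝ᵥ v = u 0 * v 0 + u 1 * v 1 + u 2 * v 2 :=
  Fin.sum_univ_three _

theorem all3 {P : Fin 3 → Prop} (h0 : P 0) (h1 : P 1) (h2 : P 2) (i : Fin 3) : P i := by
  fin_cases i
  exacts [h0, h1, h2]

/-- The exponential of the cross product with an isotropic vector. -/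
def ex (c : B) (n : Fin 3 → B) (t : B) (x : Fin 3 → B) (i : Fin 3) : B :=
  x i + t * (n ⨯₃ x) i + c * (t * t * (n ⬝ᵥ x)) * n i

end

theorem inv_ex {f : PP} {n : Fin 3 → ℂ} (hn : n ⬝ᵥ n = 0) (hf : rot n f = 0) (t : ℂ)
    (x k : Fin 3 → ℂ) : ev (ex 2⁻¹ n t x) (ex 2⁻¹ n t k) f = ev x k f := by
  obtain ⟨c, hc⟩ : ∃ c : (Fin 3 → ℂ) → Fin 3 → Polynomial ℂ, ∀ x, c x =
    ex (Polynomial.C 2⁻¹) (Polynomial.C ∘ n) Polynomial.X (Polynomial.C ∘ x) := ⟨_, fun _ => rfl⟩
  have c1 : ∀ s x i, (c x i).eval s = ex 2⁻¹ n s x i := fun s x i => by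
    rw [hc]
    refine all3 (P := fun i => Polynomial.eval s (ex _ _ _ _ i) = ex 2⁻¹ n s x i) ?_ ?_ ?_ i <;>
      simp only [ex, cr0, cr1, cr2, dt3, Function.comp_apply, Polynomial.eval_add,
        Polynomial.eval_sub, Polynomial.eval_mul, Polynomial.eval_C, Polynomial.eval_X]
  have n0 := congrArg Polynomial.C hn
  rw [dt3, map_add, map_add, map_mul, map_mul, map_mul, map_zero] at n0
  have k2 : (Polynomial.C 2⁻¹ : Polynomial ℂ) * 2 = 1 := by
    rw [← map_ofNat (Polynomial.C : ℂ →+* Polynomial ℂ) 2, ← map_mul, inv_mul_cancel₀ two_ne_zero,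
      map_one]
  have d : ∀ x i, Polynomial.derivative (c x i) = ((Polynomial.C ∘ n) ⨯₃ c x) i := fun x i => by
    rw [hc]
    refine all3 (P := fun i => Polynomial.derivative (ex _ _ _ _ i) =
      ((Polynomial.C ∘ n) ⨯₃ ex _ _ _ _) i) ?_ ?_ ?_ i <;>
      simp only [ex, cr0, cr1, cr2, dt3, Function.comp_apply, Polynomial.derivative_add,
        Polynomial.derivative_sub, Polynomial.derivative_mul, Polynomial.derivative_C,
        Polynomial.derivative_X]
    · linear_combination (Polynomial.X * (Polynomial.C (n 0) * Polynomial.C (x 0) +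
        Polynomial.C (n 1) * Polynomial.C (x 1) + Polynomial.C (n 2) * Polynomial.C (x 2)) *
        Polynomial.C (n 0)) * k2 + Polynomial.X * Polynomial.C (x 0) * n0
    · linear_combination (Polynomial.X * (Polynomial.C (n 0) * Polynomial.C (x 0) +
        Polynomial.C (n 1) * Polynomial.C (x 1) + Polynomial.C (n 2) * Polynomial.C (x 2)) *
        Polynomial.C (n 1)) * k2 + Polynomial.X * Polynomial.C (x 1) * n0
    · linear_combination (Polynomial.X * (Polynomial.C (n 0) * Polynomial.C (x 0) +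
        Polynomial.C (n 1) * Polynomial.C (x 1) + Polynomial.C (n 2) * Polynomial.C (x 2)) *
        Polynomial.C (n 2)) * k2 + Polynomial.X * Polynomial.C (x 2) * n0
  obtain ⟨φ, hx, hk⟩ : ∃ φ : PP →ₐ[ℂ] Polynomial ℂ, φ ∘ xv = c x ∧ φ ∘ kv = c k :=
    ⟨aeval (Sum.elim (c x) (c k)), funext fun _ => aeval_X _ _, funext fun _ => aeval_X _ _⟩
  have e : ∀ s, (φ f).eval s = ev (ex 2⁻¹ n s x) (ex 2⁻¹ n s k) f := fun s => by
    rw [← Polynomial.coe_aeval_eq_eval, ← AlgHom.comp_apply]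
    refine AlgHom.congr_fun (MvPolynomial.algHom_ext ?_) f
    rintro (i | i)
    · exact ((congrArg (Polynomial.eval s) (congrFun hx i)).trans (c1 s x i)).trans (ev_x _ _ i).symm
    · exact ((congrArg (Polynomial.eval s) (congrFun hk i)).trans (c1 s k i)).trans (ev_k _ _ i).symm
  have m : φ ∘ (C ∘ n) = Polynomial.C ∘ n := funext fun i => φ.commutes (n i)
  have z : ∀ x : Fin 3 → ℂ, ex 2⁻¹ n 0 x = x := fun x => funext fun i => by simp [ex]
  rw [← e t, flow (δ := rot n) φ ?_ hf t 0, e, z, z]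
  rintro (i | i)
  · have := congrFun (map_cross φ (C ∘ n) xv) i
    rw [m, hx, ← d, ← rot_x, ← hx] at this
    exact this.symm
  · have := congrFun (map_cross φ (C ∘ n) kv) i
    rw [m, hk, ← d, ← rot_k, ← hk] at this
    exact this.symm

theorem sl2_ind {P : Matrix (Fin 2) (Fin 2) ℂ → Prop} (hu : ∀ t, P !![1, t; 0, 1])
    (hl : ∀ t, P !![1, 0; t, 1]) (hm : ∀ a b, P a → P b → P (a * b))
    {a : Matrix (Fin 2) (Fin 2) ℂ} (h : a.det = 1) : P a := by
  have k : ∀ a : Matrix (Fin 2) (Fin 2) ℂ, a.det = 1 → a 1 0 ≠ 0 → P a := fun a h r => by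
    have e : a = !![1, (a 0 0 - 1) / a 1 0; 0, 1] * !![1, 0; a 1 0, 1] *
        !![1, (a 1 1 - 1) / a 1 0; 0, 1] := by
      rw [det_fin_two] at h
      ext i j
      fin_cases i <;> fin_cases j <;> simp [mul_apply, Fin.sum_univ_two] <;> field_simp
      · ring
      · linear_combination -h
      · ring
    rw [e]
    exact hm _ _ (hm _ _ (hu _) (hl _)) (hu _)
  by_cases r : a 1 0 = 0
  · have e : a = !![1, 0; -1, 1] * (!![1, 0; 1, 1] * a) := by
      rw [← Matrix.mul_assoc]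
      ext i j
      fin_cases i <;> fin_cases j <;> simp [mul_apply, Fin.sum_univ_two]
    rw [e]
    refine hm _ _ (hl _) (k _ (by rw [det_mul, h]; simp [det_fin_two]) fun z => ?_)
    rw [det_fin_two, r] at h
    simp [mul_apply, Fin.sum_univ_two, r] at z
    simp [z] at h
  · exact k a h r

theorem ht_inj {u v : Fin 3 → ℂ} (h : ht pa u = ht pa v) : u = v := by
  have e : ∀ u, co (ht pa u) = u := fun u => by
    rw [ht_sl]
    ext i
    fin_cases i <;> simp [co] <;> ring_nf <;> simp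
  rw [← e u, h, e]

theorem inv_of_lie {f : PP} (hf : ∀ n, rot n f = 0) {g : Matrix (Fin 3) (Fin 3) ℂ} (h : Rot g)
    (x k : Fin 3 → ℂ) : ev (g *ᵥ x) (g *ᵥ k) f = ev x k f := by
  obtain ⟨a, ha, e⟩ := onto_sl h
  obtain ⟨γ, e', hγ⟩ := sl2_ind (P := fun a => ∃ γ : (Fin 3 → ℂ) → Fin 3 → ℂ,
      (∀ ξ, a * ht pa ξ = ht pa (γ ξ) * a) ∧ ∀ x k, ev (γ x) (γ k) f = ev x k f)
    (fun t => ⟨ex 2⁻¹ ![I, -1, 0] t, fun ξ => by
      rw [ht_sl, ht_sl]
      ext i j
      fin_cases i <;> fin_cases j <;> simp [ex, cr0, cr1, cr2,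
        mul_apply, Fin.sum_univ_two, vecHead, vecTail] <;> grind [I_mul_I],
      inv_ex (by simp [dt3]) (hf _) t⟩)
    (fun t => ⟨ex 2⁻¹ ![I, 1, 0] t, fun ξ => by
      rw [ht_sl, ht_sl]
      ext i j
      fin_cases i <;> fin_cases j <;> simp [ex, cr0, cr1, cr2,
        mul_apply, Fin.sum_univ_two, vecHead, vecTail] <;> grind [I_mul_I],
      inv_ex (by simp [dt3]) (hf _) t⟩)
    (fun a b ⟨γ, h1, h2⟩ ⟨δ, h3, h4⟩ => ⟨γ ∘ δ, fun ξ => by
      rw [Matrix.mul_assoc, h3, ← Matrix.mul_assoc, h1, Matrix.mul_assoc]; rfl,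
      fun x k => (h2 _ _).trans (h4 _ _)⟩) ha
  have u : ∀ ξ, g *ᵥ ξ = γ ξ := fun ξ => ht_inj (by
    have := (e ξ).symm.trans (e' ξ)
    exact (Matrix.isUnit_iff_isUnit_det a |>.2 (ha ▸ isUnit_one)).mul_right_cancel this)
  rw [u, u, hγ]

/-- The invariants. -/
theorem fft0L {f : PP} (hf : ∀ n, rot n f = 0) : ∃ a, f = iv a :=
  fft0 fun _ hg => inv_of_lie hf hg

theorem rot_dot (n : Fin 3 → ℂ) {u v : Fin 3 → PP} (hu : rot n ∘ u = (C ∘ n) ⨯₃ u)
    (hv : rot n ∘ v = (C ∘ n) ⨯₃ v) : rot n (u ⬝ᵥ v) = 0 := by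
  have a := congrFun hu
  have b := congrFun hv
  simp only [Function.comp_apply] at a b
  simp only [dotProduct, Fin.sum_univ_three, map_add, Derivation.leibniz, a, b, smul_eq_mul]
  simp [cross_apply]
  ring

theorem rot_cross (n : Fin 3 → ℂ) {u v : Fin 3 → PP} (hu : rot n ∘ u = (C ∘ n) ⨯₃ u)
    (hv : rot n ∘ v = (C ∘ n) ⨯₃ v) : rot n ∘ (u ⨯₃ v) = (C ∘ n) ⨯₃ (u ⨯₃ v) := by
  have a := congrFun hu
  have b := congrFun hv
  simp only [Function.comp_apply] at a b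
  ext1 i
  fin_cases i <;> simp [cross_apply, a, b] <;> ring

theorem rot_iv (n : Fin 3 → ℂ) (a : TT) : rot n (iv a) = 0 := by
  induction a using MvPolynomial.induction_on with
  | C c => rw [← algebraMap_eq, iv.commutes, Derivation.map_algebraMap]
  | add p q hp hq => rw [map_add, map_add, hp, hq, add_zero]
  | mul_X p i hp =>
    have e : rot n (iv (X i)) = 0 := by
      rw [iv, aeval_X]
      fin_cases i
      exacts [rot_dot n (rot_x n) (rot_x n), rot_dot n (rot_x n) (rot_k n),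
        rot_dot n (rot_k n) (rot_k n)]
    rw [map_mul, Derivation.leibniz, hp, e, smul_zero, smul_zero, add_zero]

/-- The covariants. -/
theorem fft1L {v : Fin 3 → PP} (h : ∀ n, rot n ∘ v = (C ∘ n) ⨯₃ v) :
    ∃ a b c, v = iv a • xv + iv b • kv + iv c • (xv ⨯₃ kv) := by
  obtain ⟨a, ha⟩ := fft0L fun n => rot_dot n (h n) (rot_x n)
  obtain ⟨b, hb⟩ := fft0L fun n => rot_dot n (h n) (rot_k n)
  obtain ⟨c, hc⟩ := fft0L fun n => rot_dot n (h n) (rot_cross n (rot_x n) (rot_k n))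
  have i0 : iv (X 0) = xv ⬝ᵥ xv := aeval_X _ _
  have i1 : iv (X 1) = xv ⬝ᵥ kv := aeval_X _ _
  have i2 : iv (X 2) = kv ⬝ᵥ kv := aeval_X _ _
  have e : iv gd • v = iv (X 2 * a - X 1 * b) • xv + iv (X 0 * b - X 1 * a) • kv +
      iv c • (xv ⨯₃ kv) := by
    simp only [gd, map_sub, map_mul, map_pow, i0, i1, i2, ← ha, ← hb, ← hc]
    exact cramer3 xv kv v
  obtain ⟨⟨a', ea⟩, ⟨b', eb⟩, c', ec⟩ := cov_dvd e
  refine ⟨a', b', c', smul_right_injective _ gd_ne ?_⟩
  simp only [e, ea, eb, smul_add, smul_smul, ← map_mul, ← ec]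

end

end Vale.Agent.P286EI
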