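import Mathlib

/-!
Invariants and covariants of the rotation group on pairs of vectors.
-/

set_option autoImplicit false
set_option linter.all false

namespace Vale.Agent.P286EI

open Matrix MvPolynomial Complex

noncomputable section

/-- Functions of two vectors. -/
abbrev PP : Type := MvPolynomial (Fin 3 ⊕ Fin 3) ℂ

/-- Functions of three scalars. -/
abbrev TT : Type := MvPolynomial (Fin 3) ℂ

/-- The first vector. -/
def xv : Fin 3 → PP := fun i => X (.inl i)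

/-- The second vector. -/
def kv : Fin 3 → PP := fun i => X (.inr i)

/-- The scalar products. -/
def iv : TT →ₐ[ℂ] PP := aeval ![xv ⬝ᵥ xv, xv ⬝ᵥ kv, kv ⬝ᵥ kv]

/-- The rotations. -/
def Rot (g : Matrix (Fin 3) (Fin 3) ℂ) : Prop := gᵀ * g = 1 ∧ g.det = 1

/-- The value at a pair of vectors. -/
def ev (x k : Fin 3 → ℂ) : PP →ₐ[ℂ] ℂ := aeval (Sum.elim x k)

theorem ev_x (x k : Fin 3 → ℂ) (i : Fin 3) : ev x k (xv i) = x i := aeval_X _ _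

theorem ev_k (x k : Fin 3 → ℂ) (i : Fin 3) : ev x k (kv i) = k i := aeval_X _ _

theorem ev_ext {f g : PP} (h : ∀ x k, ev x k f = ev x k g) : f = g :=
  MvPolynomial.funext fun z => by
    have := h (z ∘ .inl) (z ∘ .inr)
    rwa [ev, Sum.elim_comp_inl_inr] at this

theorem map_dot {A B : Type} [CommRing A] [CommRing B] [Algebra ℂ A] [Algebra ℂ B] (f : A →ₐ[ℂ] B)
    (u v : Fin 3 → A) : f (u ⬝ᵥ v) = (f ∘ u) ⬝ᵥ (f ∘ v) := by
  simp [dotProduct]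

theorem map_cross {A B : Type} [CommRing A] [CommRing B] [Algebra ℂ A] [Algebra ℂ B]
    (f : A →ₐ[ℂ] B) (u v : Fin 3 → A) : f ∘ (u ⨯₃ v) = (f ∘ u) ⨯₃ (f ∘ v) := by
  ext i
  fin_cases i <;> simp [cross_apply]

theorem map_iv {B : Type} [CommRing B] [Algebra ℂ B] (f : PP →ₐ[ℂ] B) (a : TT) :
    f (iv a) = aeval ![(f ∘ xv) ⬝ᵥ (f ∘ xv), (f ∘ xv) ⬝ᵥ (f ∘ kv), (f ∘ kv) ⬝ᵥ (f ∘ kv)] a := by
  rw [iv, ← AlgHom.comp_apply, comp_aeval]
  refine congrArg (fun z => aeval z a) (funext fun i => ?_)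
  fin_cases i <;> exact map_dot f _ _

theorem ev_xv (x k : Fin 3 → ℂ) : ev x k ∘ xv = x := funext (ev_x x k)

theorem ev_kv (x k : Fin 3 → ℂ) : ev x k ∘ kv = k := funext (ev_k x k)

theorem Rot.dot {g : Matrix (Fin 3) (Fin 3) ℂ} (h : Rot g) (u v : Fin 3 → ℂ) :
    (g *ᵥ u) ⬝ᵥ (g *ᵥ v) = u ⬝ᵥ v := by
  rw [dotProduct_mulVec, vecMul_mulVec, h.1, vecMul_one]

theorem Rot.tri {g : Matrix (Fin 3) (Fin 3) ℂ} (h : Rot g) (u v w : Fin 3 → ℂ) :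
    (g *ᵥ u) ⬝ᵥ ((g *ᵥ v) ⨯₃ (g *ᵥ w)) = u ⬝ᵥ (v ⨯₃ w) := by
  have e : (of ![g *ᵥ u, g *ᵥ v, g *ᵥ w] : Matrix (Fin 3) (Fin 3) ℂ) = of ![u, v, w] * gᵀ := by
    ext i j
    fin_cases i <;> simp [mul_apply, mulVec, dotProduct, mul_comm]
  rw [triple_product_eq_det, triple_product_eq_det]
  exact (congrArg det e).trans (by rw [det_mul, det_transpose, h.2, mul_one]; rfl)

theorem Rot.cross {g : Matrix (Fin 3) (Fin 3) ℂ} (h : Rot g) (v w : Fin 3 → ℂ) :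
    (g *ᵥ v) ⨯₃ (g *ᵥ w) = g *ᵥ (v ⨯₃ w) := by
  refine dotProduct_eq _ _ fun u => ?_
  have e : g *ᵥ (gᵀ *ᵥ u) = u := by rw [mulVec_mulVec, mul_eq_one_comm.1 h.1, one_mulVec]
  rw [← e, dotProduct_comm, h.tri, h.dot, dotProduct_comm]

theorem witt {x k x' k' : Fin 3 → ℂ} (h1 : x' ⬝ᵥ x' = x ⬝ᵥ x) (h2 : x' ⬝ᵥ k' = x ⬝ᵥ k)
    (h3 : k' ⬝ᵥ k' = k ⬝ᵥ k) (h : x ⬝ᵥ x * (k ⬝ᵥ k) - (x ⬝ᵥ k) ^ 2 ≠ 0) :
    ∃ g, Rot g ∧ g *ᵥ x = x' ∧ g *ᵥ k = k' := by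
  have a : ∀ x k : Fin 3 → ℂ, (of ![x, k, x ⨯₃ k] : Matrix (Fin 3) (Fin 3) ℂ).det =
      x ⬝ᵥ x * (k ⬝ᵥ k) - (x ⬝ᵥ k) ^ 2 := fun x k => by
    simp [det_fin_three, cross_apply, dotProduct, Fin.sum_univ_three]
    ring
  have b : ∀ x k : Fin 3 → ℂ, (of ![x, k, x ⨯₃ k] : Matrix (Fin 3) (Fin 3) ℂ) *
      (of ![x, k, x ⨯₃ k])ᵀ = !![x ⬝ᵥ x, x ⬝ᵥ k, 0; x ⬝ᵥ k, k ⬝ᵥ k, 0;
        0, 0, x ⬝ᵥ x * (k ⬝ᵥ k) - (x ⬝ᵥ k) ^ 2] := fun x k => by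
    ext i j
    fin_cases i <;> fin_cases j <;>
      simp [mul_apply, cross_apply, dotProduct, Fin.sum_univ_three] <;> ring
  have a1 := a x k
  have a2 := a x' k'
  have b1 := b x k
  have b2 := b x' k'
  rw [h1, h2, h3] at a2 b2
  have c : ∀ (g : Matrix (Fin 3) (Fin 3) ℂ) (i : Fin 3), g * (of ![x, k, x ⨯₃ k])ᵀ =
      (of ![x', k', x' ⨯₃ k'])ᵀ → g *ᵥ ![x, k, x ⨯₃ k] i = ![x', k', x' ⨯₃ k'] i :=
    fun g i e => funext fun j => congrFun (congrFun e j) i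
  generalize hM : (of ![x, k, x ⨯₃ k] : Matrix (Fin 3) (Fin 3) ℂ) = M at a1 b1 c
  generalize hN : (of ![x', k', x' ⨯₃ k'] : Matrix (Fin 3) (Fin 3) ℂ) = N at a2 b2 c
  have u : IsUnit M.det := (a1 ▸ h).isUnit
  have u' : IsUnit Mᵀ.det := by rwa [det_transpose]
  have e : Nᵀ * Mᵀ⁻¹ * Mᵀ = Nᵀ := by rw [Matrix.mul_assoc, nonsing_inv_mul _ u', Matrix.mul_one]
  refine ⟨Nᵀ * Mᵀ⁻¹, ⟨?_, ?_⟩, c _ 0 e, c _ 1 e⟩
  · rw [transpose_mul, transpose_transpose, transpose_nonsing_inv, transpose_transpose,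
      Matrix.mul_assoc, ← Matrix.mul_assoc N, b2, ← b1, Matrix.mul_assoc, mul_nonsing_inv _ u',
      Matrix.mul_one, nonsing_inv_mul _ u]
  · have := congrArg det e
    rw [det_mul, det_transpose, det_transpose, a1, a2] at this
    exact mul_right_cancel₀ h (this.trans (one_mul _).symm)

/-- The substitution `r = β²`. -/
def sq2 : TT →ₐ[ℂ] TT := aeval ![X 0, X 1, X 2 ^ 2]

theorem ev_sq2 (p q b : ℂ) (a : TT) : aeval ![p, q, b] (sq2 a) = aeval ![p, q, b ^ 2] a := by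
  rw [sq2, ← AlgHom.comp_apply, comp_aeval]
  refine congrArg (fun z => aeval z a) (funext fun i => ?_)
  fin_cases i <;> simp

theorem eo_ex (s : TT) : ∃ a b, s = sq2 a + X 2 * sq2 b := by
  induction s using MvPolynomial.induction_on with
  | C c => exact ⟨C c, 0, by simp [sq2]⟩
  | add p q hp hq =>
    obtain ⟨a, b, rfl⟩ := hp
    obtain ⟨c, d, rfl⟩ := hq
    exact ⟨a + c, b + d, by rw [map_add, map_add]; ring⟩
  | mul_X p i hp =>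
    obtain ⟨a, b, rfl⟩ := hp
    fin_cases i
    · exact ⟨a * X 0, b * X 0, by simp [sq2]; ring⟩
    · exact ⟨a * X 1, b * X 1, by simp [sq2]; ring⟩
    · exact ⟨b * X 2, a, by simp [sq2]; ring⟩

theorem sq2_inj {a : TT} (h : ∀ p q b : ℂ, aeval ![p, q, b ^ 2] a = 0) : a = 0 :=
  MvPolynomial.funext fun z => by
    obtain ⟨b, hb⟩ := IsAlgClosed.exists_pow_nat_eq (z 2) two_pos
    have e : z = ![z 0, z 1, b ^ 2] := by
      ext i
      fin_cases i <;> simp [hb]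
    rw [map_zero, e]
    exact h _ _ _

theorem eo_un {a b : TT} (h : sq2 a + X 2 * sq2 b = 0) : a = 0 ∧ b = 0 := by
  have e : a = 0 := sq2_inj fun p q c => by
    have h1 := congrArg (aeval ![p, q, c]) h
    have h2 := congrArg (aeval ![p, q, -c]) h
    simp only [map_add, map_mul, ev_sq2, aeval_X, map_zero, neg_sq] at h1 h2
    simp at h1 h2
    simp
    linear_combination (h1 + h2) / 2
  rw [e, map_zero, zero_add, mul_eq_zero] at h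
  refine ⟨e, sq2_inj fun p q c => ?_⟩
  rw [← ev_sq2, h.resolve_left (X_ne_zero _), map_zero]

theorem eo_dvd {a b D s : TT} (h : sq2 a + X 2 * sq2 b = sq2 D * s) : D ∣ a ∧ D ∣ b := by
  obtain ⟨c, d, rfl⟩ := eo_ex s
  have := eo_un (a := a - D * c) (b := b - D * d) (by
    simp only [map_sub, map_mul]
    linear_combination h)
  exact ⟨⟨c, sub_eq_zero.1 this.1⟩, d, sub_eq_zero.1 this.2⟩

section

variable {B : Type} [CommRing B] [Algebra ℂ B]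

/-- The first vector of the slice. -/
def sx (p : B) : Fin 3 → B :=
  ![1 + (4⁻¹ : ℂ) • p, I • (1 - (4⁻¹ : ℂ) • p), 0]

/-- The second vector of the slice. -/
def sk (q b : B) : Fin 3 → B := ![(2⁻¹ : ℂ) • q, -(I * 2⁻¹ : ℂ) • q, b]

theorem sx_sx (p : B) : sx p ⬝ᵥ sx p = p := by
  simp only [sx, dotProduct, Fin.sum_univ_three, cons_val, smul_mul_smul_comm, I_mul_I]
  simp only [mul_add, add_mul, mul_sub, sub_mul, smul_mul_smul_comm, one_mul, mul_one, mul_zero]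
  module

theorem sx_sk (p q b : B) : sx p ⬝ᵥ sk q b = q := by
  have e : I * -(I * 2⁻¹ : ℂ) = 2⁻¹ := by rw [mul_neg, ← mul_assoc, I_mul_I]; ring
  simp only [sx, sk, dotProduct, Fin.sum_univ_three, cons_val, smul_mul_smul_comm, e]
  simp only [add_mul, sub_mul, smul_mul_assoc, mul_smul_comm, one_mul, zero_mul]
  module

theorem sk_sk (q b : B) : sk q b ⬝ᵥ sk q b = b ^ 2 := by
  have e : -(I * 2⁻¹ : ℂ) * -(I * 2⁻¹ : ℂ) = -4⁻¹ := by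
    rw [neg_mul_neg, mul_mul_mul_comm, I_mul_I]; ring
  simp only [sk, dotProduct, Fin.sum_univ_three, cons_val, smul_mul_smul_comm, e, sq]
  module

end

/-- The restriction to the slice. -/
def sl : PP →ₐ[ℂ] TT := aeval (Sum.elim (sx (X 0)) (sk (X 1) (X 2)))

theorem sl_xv : sl ∘ xv = sx (X 0) := funext fun _ => aeval_X _ _

theorem sl_kv : sl ∘ kv = sk (X 1) (X 2) := funext fun _ => aeval_X _ _

theorem sl_iv (a : TT) : sl (iv a) = sq2 a := by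
  rw [map_iv, sl_xv, sl_kv, sx_sx, sx_sk, sk_sk, sq2]

theorem ev_sl (p q b : ℂ) (f : PP) : aeval ![p, q, b] (sl f) = ev (sx p) (sk q b) f := by
  rw [sl, ← AlgHom.comp_apply, comp_aeval, ev]
  refine congrArg (fun z => aeval z f) (funext fun i => ?_)
  rcases i with i | i <;> fin_cases i <;> simp [sx, sk]

theorem iv_inj {a : TT} (h : iv a = 0) : a = 0 :=
  (eo_un (b := 0) (by rw [← sl_iv, h, map_zero, map_zero, mul_zero, add_zero])).1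

/-- The Gram determinant. -/
def gd : TT := X 0 * X 2 - X 1 ^ 2

theorem gd_ne : iv gd ≠ 0 := fun e => by
  have := congrArg (aeval ![(1 : ℂ), 0, 1]) (iv_inj e)
  simp [gd] at this

/-- The invariants. -/
theorem fft0 {f : PP} (h : ∀ g, Rot g → ∀ x k, ev (g *ᵥ x) (g *ᵥ k) f = ev x k f) :
    ∃ a, f = iv a := by
  obtain ⟨a, b, e⟩ := eo_ex (sl f)
  refine ⟨a, mul_right_cancel₀ gd_ne (ev_ext fun x k => ?_)⟩
  rw [map_mul, map_mul, map_iv, map_iv, ev_xv, ev_kv]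
  by_cases g : x ⬝ᵥ x * (k ⬝ᵥ k) - (x ⬝ᵥ k) ^ 2 = 0
  · simp [gd, g]
  obtain ⟨c, hc⟩ := IsAlgClosed.exists_pow_nat_eq (k ⬝ᵥ k) two_pos
  have t : ∀ c : ℂ, c ^ 2 = k ⬝ᵥ k → ev x k f = aeval ![x ⬝ᵥ x, x ⬝ᵥ k, k ⬝ᵥ k] a +
      c * aeval ![x ⬝ᵥ x, x ⬝ᵥ k, k ⬝ᵥ k] b := fun c hc => by
    obtain ⟨r, hr, r1, r2⟩ := witt (sx_sx (x ⬝ᵥ x)) (sx_sk _ (x ⬝ᵥ k) c) ((sk_sk _ c).trans hc) g
    rw [← h r hr, r1, r2, ← ev_sl, e, map_add, map_mul, ev_sq2, ev_sq2, hc, aeval_X]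
    rfl
  have t1 := t c hc
  have t2 := t (-c) (by rw [neg_sq, hc])
  refine congrArg (· * _) ?_
  linear_combination (t1 + t2) / 2

theorem cov_dvd {a b c D : TT} {v : Fin 3 → PP}
    (h : iv D • v = iv a • xv + iv b • kv + iv c • (xv ⨯₃ kv)) : D ∣ a ∧ D ∣ b ∧ D ∣ c := by
  have e : ∀ i, sq2 D * sl (v i) = sq2 a * sx (X 0) i + sq2 b * sk (X 1) (X 2) i +
      sq2 c * (sx (X 0) ⨯₃ sk (X 1) (X 2)) i := fun i => by
    have := congrArg sl (congrFun h i)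
    simp only [Pi.add_apply, Pi.smul_apply, smul_eq_mul, map_add, map_mul, sl_iv] at this
    rw [this, ← sl_xv, ← sl_kv, ← map_cross]
    rfl
  have e0 := e 0
  have e1 := e 1
  have e2 := e 2
  simp only [sx, sk, cross_apply, cons_val, smul_eq_C_mul, map_neg, map_mul, neg_smul] at e0 e1 e2
  have i2 : (C I : TT) * C I = -1 := by rw [← map_mul, I_mul_I, map_neg, map_one]
  have k2 : (C 2⁻¹ : TT) * 2 = 1 := by
    rw [← map_ofNat (C : ℂ →+* TT) 2, ← map_mul, inv_mul_cancel₀ two_ne_zero, map_one]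
  have s0 : ∀ z : ℂ, sq2 (C z) = C z := fun z => sq2.commutes z
  have s1 : sq2 (X 1) = X 1 := aeval_X _ _
  have d1 := eo_dvd (a := a) (b := C I * c) (D := D) (s := C 2⁻¹ * (sl (v 0) - C I * sl (v 1))) (by
    rw [map_mul, s0]
    linear_combination (-C 2⁻¹ : TT) * e0 + C 2⁻¹ * C I * e1 - (sq2 a + X 2 * C I * sq2 c) * k2 +
      (C 2⁻¹ * sq2 a * (1 - C 4⁻¹ * X 0) - C 2⁻¹ * C 2⁻¹ * sq2 b * X 1) * i2)
  have d2 := eo_dvd (a := -(C I * X 1 * c)) (b := b) (D := D) (s := sl (v 2)) (by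
    rw [map_neg, map_mul, map_mul, s0, s1]
    linear_combination -e2 + (C I * X 1 * sq2 c) * k2)
  refine ⟨d1.1, d2.2, ?_⟩
  have := d1.2.mul_left (-C I)
  rwa [← mul_assoc, neg_mul, i2, neg_neg, one_mul] at this

theorem cov_un {a b c : TT} (h : iv a • xv + iv b • kv + iv c • (xv ⨯₃ kv) = 0) :
    a = 0 ∧ b = 0 ∧ c = 0 := by
  have := cov_dvd (D := 0) (v := 0) (by rw [h, smul_zero])
  simpa using this

theorem cramer3 {B : Type} [CommRing B] (x k v : Fin 3 → B) :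
    (x ⬝ᵥ x * (k ⬝ᵥ k) - (x ⬝ᵥ k) ^ 2) • v = (k ⬝ᵥ k * (v ⬝ᵥ x) - x ⬝ᵥ k * (v ⬝ᵥ k)) • x +
      (x ⬝ᵥ x * (v ⬝ᵥ k) - x ⬝ᵥ k * (v ⬝ᵥ x)) • k + (v ⬝ᵥ (x ⨯₃ k)) • (x ⨯₃ k) := by
  ext i
  fin_cases i <;> simp [cross_apply, dotProduct, Fin.sum_univ_three] <;> ring

/-- The covariants. -/
theorem fft1 {v : Fin 3 → PP}
    (h : ∀ g, Rot g → ∀ x k, ev (g *ᵥ x) (g *ᵥ k) ∘ v = g *ᵥ (ev x k ∘ v)) :
    ∃ a b c, v = iv a • xv + iv b • kv + iv c • (xv ⨯₃ kv) := by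
  obtain ⟨a, ha⟩ := fft0 (f := v ⬝ᵥ xv) fun g hg x k => by
    rw [map_dot, map_dot, h g hg, ev_xv, ev_xv, hg.dot]
  obtain ⟨b, hb⟩ := fft0 (f := v ⬝ᵥ kv) fun g hg x k => by
    rw [map_dot, map_dot, h g hg, ev_kv, ev_kv, hg.dot]
  obtain ⟨c, hc⟩ := fft0 (f := v ⬝ᵥ (xv ⨯₃ kv)) fun g hg x k => by
    rw [map_dot, map_dot, h g hg, map_cross, map_cross, ev_xv, ev_xv, ev_kv, ev_kv, hg.tri]
  have i0 : iv (X 0) = xv ⬝ᵥ xv := aeval_X _ _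
  have i1 : iv (X 1) = xv ⬝ᵥ kv := aeval_X _ _
  have i2 : iv (X 2) = kv ⬝ᵥ kv := aeval_X _ _
  have e : iv gd • v = iv (X 2 * a - X 1 * b) • xv + iv (X 0 * b - X 1 * a) • kv +
      iv c • (xv ⨯₃ kv) := by
    simp only [gd, map_sub, map_mul, map_pow, i0, i1, i2, ← ha, ← hb, ← hc]
    exact cramer3 xv kv v
  obtain ⟨⟨a', ea⟩, ⟨b', eb⟩, c', ec⟩ := cov_dvd e
  refine ⟨a', b', c', smul_right_injective _ gd_ne ?_⟩
  simp only [e, ea, eb, smul_add, smul_smul, ← map_mul, ← ec]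

end

end Vale.Agent.P286EI
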