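import Vale.Agent.P286EI.Fft
import Vale.Agent.P286E.Defs

/-!
Every rotation is given by the adjoint action.
-/

set_option autoImplicit false
set_option linter.all false

namespace Vale.Agent.P286EI

open Matrix Complex Vale.Agent.P286E

noncomputable section

/-- The element `∑ ξ_i β_i`. -/
def ht {N : ℕ} (β : Fin 3 → Matrix (Fin N) (Fin N) ℂ) (ξ : Fin 3 → ℂ) : Matrix (Fin N) (Fin N) ℂ :=
  ∑ i, ξ i • β i

/-- The Pauli matrices. -/
def pa : Fin 3 → Matrix (Fin 2) (Fin 2) ℂ := ![!![0, 1; 1, 0], !![0, -I; I, 0], !![1, 0; 0, -1]]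

/-- The infinitesimal rotations. -/
def ro : Fin 3 → Matrix (Fin 3) (Fin 3) ℂ := ![!![0, 0, 0; 0, 0, -I; 0, I, 0],
  !![0, 0, I; 0, 0, 0; -I, 0, 0], !![0, -I, 0; I, 0, 0; 0, 0, 0]]

theorem pa_eq : SL2.β = pa := rfl

theorem ro_eq : SO3.β = ro := rfl

theorem ht_sl (ξ : Fin 3 → ℂ) :
    ht pa ξ = !![ξ 2, ξ 0 - I * ξ 1; ξ 0 + I * ξ 1, -ξ 2] := by
  refine Matrix.ext fun (i : Fin 2) (j : Fin 2) => ?_
  fin_cases i <;> fin_cases j <;> simp [ht, pa, Fin.sum_univ_three, Matrix.sum_apply] <;> ring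

theorem ht_so (ξ v : Fin 3 → ℂ) : ht ro ξ *ᵥ v = I • (ξ ⨯₃ v) := by
  refine funext fun i : Fin 3 => ?_
  fin_cases i <;> simp [ht, ro, Fin.sum_univ_three, Matrix.sum_apply, mulVec, dotProduct,
    cross_apply] <;> ring

theorem onto_so {g : Matrix (Fin 3) (Fin 3) ℂ} (h : Rot g) (ξ : Fin 3 → ℂ) :
    g * ht ro ξ = ht ro (g *ᵥ ξ) * g := by
  refine toLin'.injective (LinearMap.ext fun v => ?_)
  rw [toLin'_apply, toLin'_apply, ← mulVec_mulVec, ← mulVec_mulVec, ht_so, ht_so, h.cross,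
    mulVec_smul]

/-- The coordinates of a matrix. -/
def co (m : Matrix (Fin 2) (Fin 2) ℂ) : Fin 3 → ℂ :=
  ![(m 0 1 + m 1 0) / 2, I * (m 0 1 - m 1 0) / 2, (m 0 0 - m 1 1) / 2]

theorem ht_mul (u v : Fin 3 → ℂ) : (ht pa u : Matrix (Fin 2) (Fin 2) ℂ) * ht pa v =
    (u ⬝ᵥ v) • (1 : Matrix (Fin 2) (Fin 2) ℂ) + ht pa (I • (u ⨯₃ v)) := by
  rw [ht_sl, ht_sl, ht_sl]
  refine Matrix.ext fun (i : Fin 2) (j : Fin 2) => ?_
  fin_cases i <;> fin_cases j <;> simp [cross_apply, dotProduct, Fin.sum_univ_three] <;>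
    ring_nf <;> simp <;> ring

theorem ht_co (m : Matrix (Fin 2) (Fin 2) ℂ) :
    m = (trace m / 2) • (1 : Matrix (Fin 2) (Fin 2) ℂ) + ht pa (co m) := by
  rw [ht_sl]
  refine Matrix.ext fun (i : Fin 2) (j : Fin 2) => ?_
  fin_cases i <;> fin_cases j <;> simp [co, trace_fin_two] <;> ring_nf <;> simp <;> ring

theorem ht_add {N : ℕ} (G : Fin 3 → Matrix (Fin N) (Fin N) ℂ) (u v : Fin 3 → ℂ) : ht G (u + v) = ht G u + ht G v := by
  simp only [ht, Pi.add_apply, add_smul, Finset.sum_add_distrib]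

theorem ht_smul {N : ℕ} (G : Fin 3 → Matrix (Fin N) (Fin N) ℂ) (c : ℂ) (v : Fin 3 → ℂ) : ht G (c • v) = c • ht G v := by
  simp only [ht, Pi.smul_apply, smul_eq_mul, mul_smul, Finset.smul_sum]

theorem onto_sl {g : Matrix (Fin 3) (Fin 3) ℂ} (h : Rot g) :
    ∃ a : Matrix (Fin 2) (Fin 2) ℂ, a.det = 1 ∧ ∀ ξ, a * ht pa ξ = ht pa (g *ᵥ ξ) * a := by
  let b : Fin 3 → Matrix (Fin 2) (Fin 2) ℂ := fun i => ht pa (Pi.single i 1)
  let b' : Fin 3 → Matrix (Fin 2) (Fin 2) ℂ := fun i => ht pa (g *ᵥ Pi.single i 1)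
  have c : ∀ i j : Fin 3, b' i * b' j = ((Pi.single i 1 : Fin 3 → ℂ) ⬝ᵥ Pi.single j 1) •
      (1 : Matrix (Fin 2) (Fin 2) ℂ) +
      I • ht pa (g *ᵥ ((Pi.single i 1 : Fin 3 → ℂ) ⨯₃ Pi.single j 1)) := fun i j => by
    rw [ht_mul, h.dot, h.cross, ht_smul]
  have c' : ∀ i j : Fin 3, b i * b j = ((Pi.single i 1 : Fin 3 → ℂ) ⬝ᵥ Pi.single j 1) •
      (1 : Matrix (Fin 2) (Fin 2) ℂ) +
      I • ht pa ((Pi.single i 1 : Fin 3 → ℂ) ⨯₃ Pi.single j 1) := fun i j => by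
    rw [ht_mul, ht_smul]
  have x : ∀ i j : Fin 3, (Pi.single i 1 : Fin 3 → ℂ) ⨯₃ Pi.single j 1 =
      ∑ k, ((![![![0, 0, 0], ![0, 0, 1], ![0, -1, 0]], ![![0, 0, -1], ![0, 0, 0], ![1, 0, 0]],
        ![![0, 1, 0], ![-1, 0, 0], ![0, 0, 0]]] : Fin 3 → Fin 3 → Fin 3 → ℂ) i j k) •
        (Pi.single k 1 : Fin 3 → ℂ) := fun i j => by
    ext k
    fin_cases i <;> fin_cases j <;> fin_cases k <;> simp [cross_apply, Fin.sum_univ_three]
  simp only [x, Fin.sum_univ_three, mulVec_add, mulVec_smul, ht_add, ht_smul] at c c'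
  have key : ∀ m : Matrix (Fin 2) (Fin 2) ℂ, ∀ j,
      (m + ∑ i, b' i * m * b i) * b j = b' j * (m + ∑ i, b' i * m * b i) := fun m j => by
    simp only [Fin.sum_univ_three, Matrix.add_mul, Matrix.mul_add, Matrix.mul_assoc, c']
    simp only [← Matrix.mul_assoc, c]
    fin_cases j <;> simp [Matrix.add_mul, Matrix.mul_add, b, b'] <;> abel
  obtain ⟨m, hm⟩ : ∃ m : Matrix (Fin 2) (Fin 2) ℂ, m + ∑ i, b' i * m * b i ≠ 0 := by
    by_contra! e
    have e0 := congrFun (congrFun (e !![1, 0; 0, 0]) 0) 0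
    have e1 := congrFun (congrFun (e !![0, 0; 1, 0]) 1) 0
    simp [b, b', ht_sl, Fin.sum_univ_three] at e0 e1
    exact two_ne_zero (α := ℂ) (by linear_combination e0 + e1)
  replace key := key m
  generalize m + ∑ i, b' i * m * b i = A at key hm
  have k2 : ∀ ξ, A * ht pa ξ = ht pa (g *ᵥ ξ) * A := fun ξ => by
    have e : ξ = ξ 0 • Pi.single 0 1 + ξ 1 • Pi.single 1 1 + ξ 2 • Pi.single 2 1 := by
      ext i
      fin_cases i <;> simp
    rw [e]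
    simp only [mulVec_add, mulVec_smul, ht_add, ht_smul, Matrix.mul_add, Matrix.add_mul,
      Matrix.mul_smul, Matrix.smul_mul]
    exact congrArg₂ _ (congrArg₂ _ (congrArg _ (key 0)) (congrArg _ (key 1)))
      (congrArg _ (key 2))
  have d : A.det ≠ 0 := fun e => by
    obtain ⟨v, v0, hv⟩ := exists_mulVec_eq_zero_iff.2 e
    obtain ⟨i, hi⟩ := Function.ne_iff.1 v0
    refine hm (toLin'.injective (LinearMap.ext fun w => ?_))
    have t : ∀ M : Matrix (Fin 2) (Fin 2) ℂ, (A * M) *ᵥ v = 0 := fun M => by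
      rw [ht_co M, Matrix.mul_add, Matrix.mul_smul, Matrix.mul_one, k2, add_mulVec, smul_mulVec, hv,
        ← mulVec_mulVec, hv, mulVec_zero, smul_zero, add_zero]
    have := t (vecMulVec w (Pi.single i (v i)⁻¹))
    rw [← mulVec_mulVec, vecMulVec_mulVec, single_dotProduct, inv_mul_cancel₀ hi] at this
    simpa using this
  obtain ⟨r, hr⟩ := IsAlgClosed.exists_pow_nat_eq (A.det)⁻¹ two_pos
  exact ⟨r • A, by rw [det_smul, Fintype.card_fin, hr, inv_mul_cancel₀ d],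
    fun ξ => by rw [Matrix.smul_mul, Matrix.mul_smul, k2]⟩

end

end Vale.Agent.P286EI
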