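import Vale.Agent.P286EI.DW

/-!
The Weyl algebra over a curve.
-/

set_option autoImplicit false
set_option linter.all false

namespace Vale.Agent.P286EI

open MvPolynomial Matrix

noncomputable section

namespace DO

variable {κ R : Type} [CommRing R] [Algebra ℂ R] {δ : κ → Derivation ℂ R R}

/-- Normal ordering with the functions on the right, up to the sign of the vector fields. -/
def nr (δ : κ → Derivation ℂ R R) : MvPolynomial κ R →ₗ[ℂ] DO δ :=
  (tr δ).comp ((no δ).restrictScalars ℂ)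

theorem nr_C_mul (a : R) (p : MvPolynomial κ R) : nr δ (C a * p) = nr δ p * of δ a :=
  (congrArg (tr δ) (no_C_mul a p)).trans ((tr_mul _ _).trans (congrArg (_ * ·) (tr_of a)))

theorem nr_mul_X (p : MvPolynomial κ R) (k : κ) : nr δ (p * X k) = -D δ k * nr δ p :=
  (congrArg (tr δ) (no_mul_X p k)).trans ((tr_mul _ _).trans (congrArg (· * _) (tr_D k)))

theorem nr_C (a : R) : nr δ (C a) = of δ a := (congrArg (tr δ) (no_C a)).trans (tr_of a)

theorem nr_bij (h : Cm δ) : Function.Bijective (nr δ) :=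
  (Function.Involutive.bijective (f := tr δ) tr_tr).comp (pbw h).bijective

theorem ind_left {P : DO δ → Prop} (h0 : ∀ a, P (of δ a)) (add : ∀ x y, P x → P y → P (x + y))
    (h1 : ∀ x k, P x → P (x * D δ k)) (x : DO δ) : P x := by
  obtain ⟨p, rfl⟩ := no_surj x
  induction p using MvPolynomial.induction_on with
  | C a => rw [no_C]; exact h0 a
  | add p q hp hq => rw [map_add]; exact add _ _ hp hq
  | mul_X p k hp => rw [no_mul_X]; exact h1 _ _ hp

end DO

variable {ι B B' B'' A : Type} [CommRing B] [Algebra ℂ B] [CommRing B'] [Algebra ℂ B']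
  [CommRing B''] [Algebra ℂ B''] [Ring A] [Algebra ℂ A] [DecidableEq ι]

/-- The vector fields on the product of a curve with an affine space. -/
def wd (ι : Type) [DecidableEq ι] (pd : Derivation ℂ B B) :
    Option ι → Derivation ℂ (MvPolynomial ι B) (MvPolynomial ι B)
  | none => dx pd 0
  | some a => dx 0 (Pi.single a 1)

theorem wd_n_C (pd : Derivation ℂ B B) (z : B) : wd ι pd none (C z) = C (pd z) := dx_C _ _ z

theorem wd_n_X (pd : Derivation ℂ B B) (a : ι) : wd ι pd none (X a) = 0 := dx_X _ _ a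

theorem wd_s_C (pd : Derivation ℂ B B) (a : ι) (z : B) : wd ι pd (some a) (C z) = 0 :=
  (dx_C _ _ z).trans (map_zero _)

theorem wd_s_X (pd : Derivation ℂ B B) (a b : ι) :
    wd ι pd (some a) (X b) = if a = b then 1 else 0 :=
  (dx_X _ _ b).trans (by rw [Pi.single_apply]; exact if_congr eq_comm rfl rfl)

theorem wd_s (pd : Derivation ℂ B B) (a : ι) (p : MvPolynomial ι B) :
    wd ι pd (some a) p = pderiv a p := by
  induction p using MvPolynomial.induction_on with
  | C z => rw [wd_s_C, pderiv_C]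
  | add p q hp hq => rw [map_add, map_add, hp, hq]
  | mul_X p b hp =>
    rw [Derivation.leibniz, Derivation.leibniz, hp, wd_s_X, pderiv_X, Pi.single_apply]
    simp only [eq_comm]

theorem wd_cm (pd : Derivation ℂ B B) : DO.Cm (wd ι pd) := fun k l p => by
  have e : ∀ k l b, wd ι pd k (wd ι pd l (X b)) = 0 := fun k l b => by
    rcases l with _ | l
    · rw [wd_n_X, map_zero]
    · rw [wd_s_X]
      split_ifs
      exacts [Derivation.map_one_eq_zero _, map_zero _]
  induction p using MvPolynomial.induction_on with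
  | C z => rcases k with _ | k <;> rcases l with _ | l <;> simp only [wd_n_C, wd_s_C, map_zero]
  | add p q hp hq => simp only [map_add, hp, hq]
  | mul_X p b hp =>
    simp only [Derivation.leibniz, map_add, e, hp, smul_eq_mul]
    ring

/-- The differential operators on the product of a curve with an affine space. -/
abbrev DW (ι : Type) [DecidableEq ι] (pd : Derivation ℂ B B) : Type := DO (wd ι pd)

namespace DW

variable {pd : Derivation ℂ B B} {pd' : Derivation ℂ B' B'} {pd'' : Derivation ℂ B'' B''}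

/-- The functions on the curve. -/
def cf (ι : Type) [DecidableEq ι] (pd : Derivation ℂ B B) : B →ₐ[ℂ] DW ι pd :=
  (DO.of _).comp (IsScalarTower.toAlgHom ℂ B (MvPolynomial ι B))

/-- The coordinates. -/
def y (pd : Derivation ℂ B B) (a : ι) : DW ι pd := DO.of _ (X a)

/-- The derivatives. -/
def d (pd : Derivation ℂ B B) (a : ι) : DW ι pd := DO.D _ (some a)

/-- The vector field of the curve. -/
def du (ι : Type) [DecidableEq ι] (pd : Derivation ℂ B B) : DW ι pd := DO.D _ none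

theorem of_C (z : B) : DO.of (wd ι pd) (C z) = cf ι pd z := rfl

theorem of_X (a : ι) : DO.of (wd ι pd) (X a) = y pd a := rfl

theorem cf_cf (z w : B) : cf ι pd z * cf ι pd w = cf ι pd w * cf ι pd z := DO.of_of _ _

theorem y_cf (a : ι) (z : B) : y pd a * cf ι pd z = cf ι pd z * y pd a := DO.of_of _ _

theorem y_y (a b : ι) : y pd a * y pd b = y pd b * y pd a := DO.of_of _ _

theorem d_cf (a : ι) (z : B) : d pd a * cf ι pd z = cf ι pd z * d pd a :=
  (DO.D_of _ (C z)).trans (by rw [wd_s_C, map_zero, add_zero]; rfl)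

theorem d_d (a b : ι) : d pd a * d pd b = d pd b * d pd a := DO.D_D _ _

theorem d_y (a b : ι) : d pd a * y pd b = y pd b * d pd a + if a = b then 1 else 0 :=
  (DO.D_of _ _).trans (by
    rw [wd_s_X]
    split_ifs
    exacts [congrArg _ (map_one _), congrArg _ (map_zero _)])

theorem du_cf (z : B) : du ι pd * cf ι pd z = cf ι pd z * du ι pd + cf ι pd (pd z) :=
  (DO.D_of _ (C z)).trans (by rw [wd_n_C]; rfl)

theorem du_y (a : ι) : du ι pd * y pd a = y pd a * du ι pd :=
  (DO.D_of _ _).trans (by rw [wd_n_X, map_zero, add_zero]; rfl)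

theorem du_d (a : ι) : du ι pd * d pd a = d pd a * du ι pd := DO.D_D _ _

/-- The relations. -/
structure Rel (pd : Derivation ℂ B B) (φ : B →ₐ[ℂ] A) (y d : ι → A) (u : A) : Prop where
  yy : ∀ a b, y a * y b = y b * y a
  yc : ∀ a z, y a * φ z = φ z * y a
  dd : ∀ a b, d a * d b = d b * d a
  dc : ∀ a z, d a * φ z = φ z * d a
  dy : ∀ a b, d a * y b = y b * d a + if a = b then 1 else 0
  uc : ∀ z, u * φ z = φ z * u + φ (pd z)
  uy : ∀ a, u * y a = y a * u
  ud : ∀ a, u * d a = d a * u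

theorem rel : Rel pd (cf ι pd) (y pd) (d pd) (du ι pd) :=
  ⟨y_y, y_cf, d_d, d_cf, d_y, du_cf, du_y, du_d⟩

section

variable {φ : B →ₐ[ℂ] A} {y' d' : ι → A} {u : A} (h : Rel pd φ y' d' u)

/-- The universal property. -/
def lift : DW ι pd →ₐ[ℂ] A :=
  DO.lift (cl φ y' h.yy h.yc) (fun k => k.elim u d') (by
    rintro (_ | k) (_ | l)
    exacts [rfl, h.ud l, (h.ud k).symm, h.dd k l]) (by
    rintro (_ | k) <;> refine br_ind _ _ _ (fun z => ?_) fun a => ?_
    · rw [wd_n_C, cl_C, cl_C]; exact h.uc z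
    · rw [wd_n_X, cl_X, map_zero, add_zero]; exact h.uy a
    · rw [wd_s_C, cl_C, map_zero, add_zero]; exact h.dc k z
    · rw [wd_s_X, cl_X, apply_ite (cl φ y' h.yy h.yc), map_one, map_zero]; exact h.dy k a)

theorem lift_cf (z : B) : lift h (cf ι pd z) = φ z :=
  (DO.lift_of _ _ _ _ _).trans (cl_C _ _ _ _ z)

theorem lift_y (a : ι) : lift h (y pd a) = y' a := (DO.lift_of _ _ _ _ _).trans (cl_X _ _ _ _ a)

theorem lift_d (a : ι) : lift h (d pd a) = d' a := DO.lift_D _ _ _ _ _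

theorem lift_du : lift h (du ι pd) = u := DO.lift_D _ _ _ _ _

end

theorem hom_ext {φ ψ : DW ι pd →ₐ[ℂ] A} (h0 : ∀ z, φ (cf ι pd z) = ψ (cf ι pd z))
    (h1 : ∀ a, φ (y pd a) = ψ (y pd a)) (h2 : ∀ a, φ (d pd a) = ψ (d pd a))
    (h3 : φ (du ι pd) = ψ (du ι pd)) : φ = ψ :=
  DO.hom_ext (AlgHom.congr_fun (mv_ext (φ := φ.comp (DO.of _)) (ψ := ψ.comp (DO.of _)) h0 h1)) (by
    rintro (_ | k)
    exacts [h3, h2 k])

theorem ind {P : DW ι pd → Prop} (h0 : ∀ z, P (cf ι pd z)) (h1 : ∀ a, P (y pd a))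
    (h2 : ∀ a, P (d pd a)) (h3 : P (du ι pd)) (add : ∀ x y, P x → P y → P (x + y))
    (mul : ∀ x y, P x → P y → P (x * y)) (x : DW ι pd) : P x := by
  refine DO.ind (fun p => ?_) (by rintro (_ | k); exacts [h3, h2 k]) add mul x
  induction p using MvPolynomial.induction_on with
  | C z => exact h0 z
  | add p q hp hq => rw [map_add]; exact add _ _ hp hq
  | mul_X p a hp => rw [map_mul]; exact mul _ _ hp (h1 a)

variable [Fintype ι]

/-- The Euler field. -/
def Eu (ι : Type) [DecidableEq ι] [Fintype ι] (pd : Derivation ℂ B B) : DW ι pd :=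
  ∑ a, y pd a * d pd a

theorem Eu_cf (z : B) : Eu ι pd * cf ι pd z = cf ι pd z * Eu ι pd := by
  simp only [Eu, Finset.sum_mul, Finset.mul_sum, mul_assoc, d_cf]
  simp only [← mul_assoc, y_cf]

theorem Eu_y (a : ι) : Eu ι pd * y pd a = y pd a * Eu ι pd + y pd a := by
  simp only [Eu, Finset.sum_mul, Finset.mul_sum, mul_assoc, d_y, mul_add, Finset.sum_add_distrib,
    mul_ite, mul_one, mul_zero, Finset.sum_ite_eq', Finset.mem_univ, if_true]
  simp only [← mul_assoc, y_y a]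

theorem Eu_d (a : ι) : Eu ι pd * d pd a = d pd a * Eu ι pd - d pd a := by
  simp only [Eu, Finset.sum_mul, Finset.mul_sum, ← mul_assoc, d_y, add_mul, Finset.sum_add_distrib,
    ite_mul, one_mul, zero_mul, Finset.sum_ite_eq, Finset.mem_univ, if_true, add_sub_cancel_right]
  simp only [mul_assoc, d_d a]

theorem du_Eu : du ι pd * Eu ι pd = Eu ι pd * du ι pd := by
  simp only [Eu, Finset.sum_mul, Finset.mul_sum, ← mul_assoc, du_y]
  simp only [mul_assoc, du_d]

/-- The data of a change of coordinates `y ↦ c g y` over `κ`, with the twist `l`. -/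
structure Tr (ι : Type) [DecidableEq ι] [Fintype ι] (pd : Derivation ℂ B B)
    (pd' : Derivation ℂ B' B') where
  κ : B →ₐ[ℂ] B'
  c : B'ˣ
  g : Matrix ι ι B'
  l : B'
  hκ : ∀ z, pd' (κ z) = c * κ (pd z)
  og : g * gᵀ = 1
  pg : ∀ a b, pd' (g a b) = 0

/-- A linear combination of operators. -/
def lc (pd : Derivation ℂ B B) (v : ι → B) (e : ι → DW ι pd) : DW ι pd := ∑ b, cf ι pd (v b) * e b

theorem lc_mul {e e' : ι → DW ι pd} (h : ∀ a z, e a * cf ι pd z = cf ι pd z * e a)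
    (v w : ι → B) : lc pd v e * lc pd w e' = ∑ a, ∑ b, cf ι pd (v a * w b) * (e a * e' b) := by
  simp only [lc, Finset.sum_mul_sum, map_mul, mul_assoc]
  refine Finset.sum_congr rfl fun a _ => Finset.sum_congr rfl fun b _ => ?_
  rw [← mul_assoc (e a), h, mul_assoc]

theorem lc_cf {e : ι → DW ι pd} (h : ∀ a z, e a * cf ι pd z = cf ι pd z * e a) (v : ι → B)
    (z : B) : lc pd v e * cf ι pd z = cf ι pd z * lc pd v e := by
  simp only [lc, Finset.sum_mul, Finset.mul_sum, mul_assoc, h]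
  simp only [← mul_assoc, cf_cf z]

theorem lc_lc {e e' : ι → DW ι pd} (h : ∀ a z, e a * cf ι pd z = cf ι pd z * e a)
    (h' : ∀ a z, e' a * cf ι pd z = cf ι pd z * e' a) (k : ∀ a b, e a * e' b = e' b * e a)
    (v w : ι → B) : lc pd v e * lc pd w e' = lc pd w e' * lc pd v e := by
  rw [lc_mul h, lc_mul h', Finset.sum_comm]
  simp only [k, mul_comm (v _)]

theorem lc_dy (v w : ι → B) :
    lc pd v (d pd) * lc pd w (y pd) = lc pd w (y pd) * lc pd v (d pd) + cf ι pd (v ⬝ᵥ w) := by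
  rw [lc_mul d_cf, lc_mul y_cf, Finset.sum_comm (f := fun a b => cf ι pd (w a * v b) * _)]
  simp only [d_y, mul_add, Finset.sum_add_distrib, mul_ite, mul_one, mul_zero, Finset.sum_ite_eq,
    Finset.mem_univ, if_true, mul_comm (w _), dotProduct, map_sum]

theorem lc_smul (z : B) (v : ι → B) (e : ι → DW ι pd) :
    lc pd (z • v) e = cf ι pd z * lc pd v e := by
  simp only [lc, Finset.mul_sum, Pi.smul_apply, smul_eq_mul, map_mul, mul_assoc]

theorem du_lc {e : ι → DW ι pd} (h : ∀ a, du ι pd * e a = e a * du ι pd) {v : ι → B}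
    (hv : ∀ a, pd (v a) = 0) : du ι pd * lc pd v e = lc pd v e * du ι pd := by
  simp only [lc, Finset.sum_mul, Finset.mul_sum, ← mul_assoc, du_cf, hv, map_zero, add_zero]
  simp only [mul_assoc, h]

theorem Eu_lc_y (v : ι → B) :
    Eu ι pd * lc pd v (y pd) = lc pd v (y pd) * Eu ι pd + lc pd v (y pd) := by
  simp only [lc, Finset.sum_mul, Finset.mul_sum, ← mul_assoc, Eu_cf]
  simp only [mul_assoc, Eu_y, mul_add, Finset.sum_add_distrib]

theorem Eu_lc_d (v : ι → B) :
    Eu ι pd * lc pd v (d pd) = lc pd v (d pd) * Eu ι pd - lc pd v (d pd) := by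
  simp only [lc, Finset.sum_mul, Finset.mul_sum, ← mul_assoc, Eu_cf]
  simp only [mul_assoc, Eu_d, mul_sub, Finset.sum_sub_distrib]

/-- The logarithmic derivative. -/
def lg (pd : Derivation ℂ B B) (c : Bˣ) : B := (c⁻¹ : Bˣ) * pd c

theorem mul_lg (c : Bˣ) : c * lg pd c = pd c := by rw [lg, Units.mul_inv_cancel_left]

theorem pd_inv (c : Bˣ) : pd (c⁻¹ : Bˣ) = -((c⁻¹ : Bˣ) * lg pd c) := by
  have h := pd.leibniz (c⁻¹ : Bˣ) (c : B)
  rw [Units.inv_mul, Derivation.map_one_eq_zero, smul_eq_mul, smul_eq_mul] at h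
  have h2 := c.inv_mul
  rw [lg]
  linear_combination (-(c⁻¹ : Bˣ) : B) * h - pd (c⁻¹ : Bˣ) * h2

/-- The operator `du - (c'/c) Eu + l`. -/
def tu (ι : Type) [DecidableEq ι] [Fintype ι] (pd : Derivation ℂ B B) (m l : B) : DW ι pd :=
  du ι pd - cf ι pd m * Eu ι pd + cf ι pd l

theorem tu_cf (m l z : B) :
    tu ι pd m l * cf ι pd z = cf ι pd z * tu ι pd m l + cf ι pd (pd z) := by
  simp only [tu, add_mul, sub_mul, mul_add, mul_sub, du_cf, mul_assoc, Eu_cf, cf_cf l]
  simp only [← mul_assoc, cf_cf m]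
  abel

theorem tu_mul {x : DW ι pd} (m l : B) (k : ℤ) (h1 : du ι pd * x = x * du ι pd)
    (h2 : ∀ z, x * cf ι pd z = cf ι pd z * x) (h3 : Eu ι pd * x = x * Eu ι pd + k • x) :
    tu ι pd m l * x = x * tu ι pd m l - k • (cf ι pd m * x) := by
  simp only [tu, add_mul, sub_mul, mul_add, mul_sub, h1, mul_assoc, h3, h2, mul_smul_comm]
  simp only [← mul_assoc, h2]
  abel

theorem Tr.rel (t : Tr ι pd pd') : Rel pd ((cf ι pd').comp t.κ)
    (fun a => cf ι pd' t.c * lc pd' (t.g a) (y pd'))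
    (fun a => cf ι pd' (t.c⁻¹ : B'ˣ) * lc pd' (t.g a) (d pd'))
    (cf ι pd' (t.c⁻¹ : B'ˣ) * tu ι pd' (lg pd' t.c) t.l) := by
  refine ⟨fun a b => ?_, fun a z => ?_, fun a b => ?_, fun a z => ?_, fun a b => ?_, fun z => ?_,
    fun a => ?_, fun a => ?_⟩
  · rw [← lc_smul, ← lc_smul, lc_lc y_cf y_cf y_y]
  · rw [← lc_smul]; exact lc_cf y_cf _ _
  · rw [← lc_smul, ← lc_smul, lc_lc d_cf d_cf d_d]
  · rw [← lc_smul]; exact lc_cf d_cf _ _
  · rw [← lc_smul, ← lc_smul, lc_dy, smul_dotProduct, dotProduct_smul, smul_smul, Units.inv_mul,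
      one_smul, show t.g a ⬝ᵥ t.g b = (t.g * t.gᵀ) a b from rfl, t.og, one_apply,
      apply_ite (cf ι pd'), map_one, map_zero]
  · rw [AlgHom.comp_apply, AlgHom.comp_apply, mul_assoc, tu_cf, mul_add, ← mul_assoc, cf_cf,
      mul_assoc, ← map_mul, t.hκ, Units.inv_mul_cancel_left]
  · have e := tu_mul (lg pd' t.c) t.l 1 (du_lc du_y (t.pg a)) (lc_cf y_cf _)
      ((Eu_lc_y _).trans (by rw [one_smul]))
    rw [mul_assoc, ← mul_assoc (tu ..), tu_cf, add_mul, mul_assoc, e, one_smul, mul_sub,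
      ← mul_assoc _ (cf ι pd' (lg ..)), ← map_mul, mul_lg, sub_add_cancel, mul_assoc,
      ← mul_assoc (lc ..), lc_cf y_cf, ← mul_assoc, cf_cf, mul_assoc, mul_assoc]
  · have e := tu_mul (lg pd' t.c) t.l (-1) (du_lc du_d (t.pg a)) (lc_cf d_cf _)
      ((Eu_lc_d _).trans (by rw [neg_smul, one_smul, sub_eq_add_neg]))
    rw [mul_assoc, ← mul_assoc (tu ..), tu_cf, add_mul, mul_assoc, e, neg_smul, one_smul,
      sub_neg_eq_add, mul_add _ (lc .. * _), ← mul_assoc _ (cf ι pd' (lg ..)), ← map_mul, pd_inv,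
      map_neg, neg_mul, add_neg_cancel_right, mul_assoc, ← mul_assoc (lc ..), lc_cf d_cf, mul_assoc]

/-- The change of coordinates. -/
def map (t : Tr ι pd pd') : DW ι pd →ₐ[ℂ] DW ι pd' := lift t.rel

theorem map_cf (t : Tr ι pd pd') (z : B) : map t (cf ι pd z) = cf ι pd' (t.κ z) := lift_cf _ z

theorem map_y (t : Tr ι pd pd') (a : ι) :
    map t (y pd a) = cf ι pd' t.c * lc pd' (t.g a) (y pd') := lift_y _ a

theorem map_d (t : Tr ι pd pd') (a : ι) :
    map t (d pd a) = cf ι pd' (t.c⁻¹ : B'ˣ) * lc pd' (t.g a) (d pd') := lift_d _ a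

theorem map_du (t : Tr ι pd pd') :
    map t (du ι pd) = cf ι pd' (t.c⁻¹ : B'ˣ) * tu ι pd' (lg pd' t.c) t.l := lift_du _

theorem map_yd (t : Tr ι pd pd') (a b : ι) : map t (y pd a * d pd b) =
    ∑ p, ∑ q, cf ι pd' (t.g a p * t.g b q) * (y pd' p * d pd' q) := by
  rw [map_mul, map_y, map_d, mul_assoc, ← mul_assoc (lc ..), lc_cf y_cf, ← mul_assoc, ← mul_assoc,
    ← map_mul, Units.mul_inv, map_one, one_mul, lc_mul y_cf]

theorem map_Eu (t : Tr ι pd pd') : map t (Eu ι pd) = Eu ι pd' := by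
  have e : ∀ p q, ∑ a, t.g a p * t.g a q = if p = q then 1 else 0 := fun p q =>
    (congrFun (congrFun (mul_eq_one_comm.1 t.og : t.gᵀ * t.g = 1) p) q :)
  simp only [Eu, map_sum, map_yd]
  rw [Finset.sum_comm]
  refine Finset.sum_congr rfl fun p _ => ?_
  rw [Finset.sum_comm]
  simp only [← Finset.sum_mul, ← map_sum, e, apply_ite (cf ι pd'), map_one, map_zero, ite_mul,
    one_mul, zero_mul, Finset.sum_ite_eq, Finset.mem_univ, if_true]

theorem lc_one (e : ι → DW ι pd) (a : ι) : lc pd ((1 : Matrix ι ι B) a) e = e a := by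
  simp only [lc, one_apply, apply_ite (cf ι pd), map_one, map_zero, ite_mul, one_mul, zero_mul,
    Finset.sum_ite_eq, Finset.mem_univ, if_true]

theorem map_eq_id (t : Tr ι pd pd) (h1 : ∀ z, t.κ z = z) (h2 : t.c = 1) (h3 : t.g = 1)
    (h4 : t.l = 0) : map t = AlgHom.id ℂ _ :=
  hom_ext (fun z => by rw [map_cf, h1]; rfl)
    (fun a => by rw [map_y, h2, h3, lc_one, Units.val_one, map_one, one_mul]; rfl)
    (fun a => by rw [map_d, h2, h3, lc_one, inv_one, Units.val_one, map_one, one_mul]; rfl)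
    (by simp [map_du, h2, h4, tu, lg])

theorem map_lc (t : Tr ι pd pd') (v : ι → B) {e : ι → DW ι pd} {e' : ι → DW ι pd'} {z : B'}
    (h : ∀ a, map t (e a) = cf ι pd' z * lc pd' (t.g a) e') :
    map t (lc pd v e) = cf ι pd' z * lc pd' ((t.κ ∘ v) ᵥ* t.g) e' := by
  simp only [lc, map_sum, map_mul, map_cf, h, Finset.mul_sum, vecMul, dotProduct, Finset.sum_mul,
    Function.comp_apply, mul_assoc]
  rw [Finset.sum_comm]
  refine Finset.sum_congr rfl fun a _ => Finset.sum_congr rfl fun b _ => ?_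
  rw [← mul_assoc, cf_cf, mul_assoc]

theorem map_map (t : Tr ι pd pd') (t' : Tr ι pd' pd'') (w : Tr ι pd pd'')
    (h1 : ∀ z, w.κ z = t'.κ (t.κ z)) (h2 : (w.c : B'') = t'.κ t.c * t'.c)
    (h3 : w.g = t.g.map t'.κ * t'.g) (h4 : w.l = t'.c * t'.κ t.l + t'.l) :
    (map t').comp (map t) = map w := by
  have e : w.c = Units.map (t'.κ : B' →* B'') t.c * t'.c := Units.ext h2
  have e' : ((w.c⁻¹ : B''ˣ) : B'') = t'.κ (t.c⁻¹ : B'ˣ) * (t'.c⁻¹ : B''ˣ) := by
    rw [e, mul_inv, Units.val_mul]; rfl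
  have e1 : t'.κ (t.c⁻¹ : B'ˣ) * t'.κ t.c = 1 := by rw [← map_mul, Units.inv_mul, map_one]
  have e2 := t'.c.inv_mul
  have e3 : lg pd'' w.c = t'.c * t'.κ (lg pd' t.c) + lg pd'' t'.c := by
    rw [lg, lg, lg, e', h2, Derivation.leibniz, t'.hκ, map_mul, smul_eq_mul, smul_eq_mul]
    linear_combination ((t'.c⁻¹ : B''ˣ) * pd'' t'.c : B'') * e1 +
      (t'.κ (t.c⁻¹ : B'ˣ) * t'.c * t'.κ (pd' t.c)) * e2
  refine hom_ext (fun z => ?_) (fun a => ?_) (fun a => ?_) ?_
  · rw [AlgHom.comp_apply, map_cf, map_cf, map_cf, h1]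
  · rw [AlgHom.comp_apply, map_y, map_y, map_mul, map_cf, map_lc _ _ (map_y t'), ← mul_assoc,
      ← map_mul, h2, h3]
    rfl
  · rw [AlgHom.comp_apply, map_d, map_d, map_mul, map_cf, map_lc _ _ (map_d t'), ← mul_assoc,
      ← map_mul, e', h3]
    rfl
  · have e4 : ∀ x, cf ι pd'' (t'.c⁻¹ : B''ˣ) * (cf ι pd'' t'.c * x) = x := fun x => by
      rw [← mul_assoc, ← map_mul, e2, map_one, one_mul]
    rw [AlgHom.comp_apply, map_du, map_du, e', e3, h4]
    simp only [tu, map_mul, map_add, map_sub, map_cf, map_Eu, map_du, mul_assoc, mul_add, mul_sub,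
      add_mul, e4]
    abel

end DW

end

end Vale.Agent.P286EI
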